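import Mathlib

/-!
Thresholds: for a real measurable function `d` on a probability space, almost every threshold `t`
has `ν {|d - t| ≤ e} ≤ C e` for all `e > 0`.
-/

open MeasureTheory Set Filter Topology
open scoped ENNReal

namespace Vale.Agent.P109.H703

/-- a differentiability point of the distribution function is a good threshold -/
theorem threshold_good {Ω : Type*} [MeasurableSpace Ω] (ν : Measure Ω) [IsProbabilityMeasure ν]
    {d : Ω → ℝ} (hd : Measurable d) {t : ℝ}
    (ht : DifferentiableAt ℝ (fun s : ℝ => (ν {z | d z ≤ s}).toReal) t) :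
    ∃ C : ℝ, 0 ≤ C ∧ ∀ e : ℝ, 0 < e → ν {z | |d z - t| ≤ e} ≤ ENNReal.ofReal (C * e) := by
  set Φ : ℝ → ℝ := fun s : ℝ => (ν {z | d z ≤ s}).toReal with hΦ
  obtain ⟨c, hc⟩ := (ht.isBigO_sub).bound
  rw [Metric.eventually_nhds_iff] at hc
  obtain ⟨δ, hδ, hc⟩ := hc
  refine ⟨max (3 * |c|) (4 / δ), le_trans (by positivity) (le_max_left _ _), fun e he => ?_⟩
  by_cases h2 : 2 * e < δ
  · have h1 := hc (y := t + e) (by simp [abs_of_pos he]; linarith)
    have h3 := hc (y := t - 2 * e) (by
      rw [Real.dist_eq]; rw [show t - 2 * e - t = -(2 * e) by ring, abs_neg, abs_of_pos (by linarith)]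
      exact h2)
    have hsub : {z | |d z - t| ≤ e} ⊆ {z | d z ≤ t + e} \ {z | d z ≤ t - 2 * e} := by
      intro z hz
      simp only [mem_ofPred_eq, abs_le] at hz
      refine ⟨by simp only [mem_ofPred_eq]; linarith [hz.2], ?_⟩
      simp only [mem_ofPred_eq, not_le]
      linarith [hz.1]
    have hms : MeasurableSet {z | d z ≤ t - 2 * e} := measurableSet_le hd measurable_const
    have hle : {z | d z ≤ t - 2 * e} ⊆ {z | d z ≤ t + e} := by
      intro z hz
      simp only [mem_ofPred_eq] at hz ⊢
      linarith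
    have hdiff : ν ({z | d z ≤ t + e} \ {z | d z ≤ t - 2 * e}) =
        ENNReal.ofReal (Φ (t + e) - Φ (t - 2 * e)) := by
      rw [measure_sdiff hle hms.nullMeasurableSet (measure_ne_top _ _)]
      rw [ENNReal.ofReal_sub _ ENNReal.toReal_nonneg, ENNReal.ofReal_toReal (measure_ne_top _ _),
        ENNReal.ofReal_toReal (measure_ne_top _ _)]
    refine (measure_mono hsub).trans (hdiff.le.trans (ENNReal.ofReal_le_ofReal ?_))
    have h1' : Φ (t + e) - Φ t ≤ |c| * e := by
      have := (le_abs_self _).trans h1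
      refine this.trans ?_
      rw [show t + e - t = e by ring, Real.norm_eq_abs, abs_of_pos he]
      exact mul_le_mul_of_nonneg_right (le_abs_self c) he.le
    have h3' : Φ t - Φ (t - 2 * e) ≤ |c| * (2 * e) := by
      have h4 := (neg_abs_le (Φ (t - 2 * e) - Φ t))
      have h5 : |Φ (t - 2 * e) - Φ t| ≤ c * ‖t - 2 * e - t‖ := h3
      rw [show t - 2 * e - t = -(2 * e) by ring, norm_neg, Real.norm_eq_abs,
        abs_of_pos (by linarith : (0:ℝ) < 2 * e)] at h5
      have h6 : c * (2 * e) ≤ |c| * (2 * e) := mul_le_mul_of_nonneg_right (le_abs_self c) (by linarith)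
      linarith
    calc Φ (t + e) - Φ (t - 2 * e) ≤ 3 * |c| * e := by linarith
      _ ≤ max (3 * |c|) (4 / δ) * e := mul_le_mul_of_nonneg_right (le_max_left _ _) he.le
  · push Not at h2
    refine prob_le_one.trans ?_
    rw [← ENNReal.ofReal_one]
    apply ENNReal.ofReal_le_ofReal
    have : (1 : ℝ) ≤ 4 / δ * e := by
      rw [div_mul_eq_mul_div, le_div_iff₀ hδ]; linarith
    exact this.trans (mul_le_mul_of_nonneg_right (le_max_right _ _) he.le)

/-- good thresholds exist in every interval -/
theorem exists_threshold {Ω : Type*} [MeasurableSpace Ω] (ν : Measure Ω) [IsProbabilityMeasure ν]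
    {d : Ω → ℝ} (hd : Measurable d) {a b : ℝ} (hab : a < b) :
    ∃ t ∈ Ioo a b, ∃ C : ℝ, 0 ≤ C ∧ ∀ e : ℝ, 0 < e →
      ν {z | |d z - t| ≤ e} ≤ ENNReal.ofReal (C * e) := by
  have hmono : Monotone (fun s : ℝ => (ν {z | d z ≤ s}).toReal) := by
    intro s s' hs
    refine ENNReal.toReal_mono (measure_ne_top _ _) (measure_mono ?_)
    intro z hz
    exact le_trans hz hs
  have hae := hmono.ae_differentiableAt
  have : ∃ t ∈ Ioo a b, DifferentiableAt ℝ (fun s : ℝ => (ν {z | d z ≤ s}).toReal) t := by
    by_contra hcon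
    push Not at hcon
    have h0 : volume (Ioo a b) = 0 := by
      refine measure_mono_null ?_ hae
      intro t ht
      exact hcon t ht
    rw [Real.volume_Ioo] at h0
    simp only [ENNReal.ofReal_eq_zero, sub_nonpos] at h0
    linarith
  obtain ⟨t, ht, hdt⟩ := this
  exact ⟨t, ht, threshold_good ν hd hdt⟩

end Vale.Agent.P109.H703
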