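import Mathlib
import Vale.Agent.P109.H703.Thr

/-!
A measurable coding with finitely many values is approximated by thresholds of smooth functions.
-/

open MeasureTheory Set Filter Topology Metric
open scoped ENNReal ContDiff Manifold

namespace Vale.Agent.P109.H703

/-- (AL) -/
theorem exists_alpha {d : ℕ} {H : Type} [TopologicalSpace H]
    (I : ModelWithCorners ℝ (EuclideanSpace ℝ (Fin d)) H)
    {M : Type} [TopologicalSpace M] [ChartedSpace H M] [IsManifold I ∞ M] [T2Space M]
    [SecondCountableTopology M] [CompactSpace M] [MeasurableSpace M] [BorelSpace M]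
    (ν : Measure M) [IsProbabilityMeasure ν] {A : Type} [Fintype A] [Nonempty A] (β : M → A)
    (hβ : ∀ a, MeasurableSet (β ⁻¹' {a})) {ε : ℝ} (hε : 0 < ε) :
    ∃ (L : ℕ) (u : Fin L → M → ℝ) (θ : Fin L → ℝ) (sy : (Fin L → Prop) → A),
      (∀ l, ContMDiff I 𝓘(ℝ, ℝ) ∞ (u l)) ∧
      (∀ l, ∃ C : ℝ, 0 ≤ C ∧ ∀ e : ℝ, 0 < e →
        ν {z | |u l z - θ l| ≤ e} ≤ ENNReal.ofReal (C * e)) ∧
      ν {z | sy (fun l => θ l < u l z) ≠ β z} ≤ ENNReal.ofReal ε := by
  classical
  have hmet : TopologicalSpace.MetrizableSpace M := inferInstance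
  set L := Fintype.card A with hL
  have hLpos : 0 < L := Fintype.card_pos
  let e : A ≃ Fin L := Fintype.equivFin A
  -- closed approximations
  have hδ : ENNReal.ofReal (ε / L) ≠ 0 := by
    have : 0 < ε / L := div_pos hε (by exact_mod_cast hLpos)
    simpa using this
  have h1 : ∀ a : A, ∃ F ⊆ β ⁻¹' {a}, IsClosed F ∧ ν (β ⁻¹' {a} \ F) < ENNReal.ofReal (ε / L) :=
    fun a => (hβ a).exists_isClosed_sdiff_lt (measure_ne_top _ _) hδ
  choose F hFsub hFc hFν using h1
  have hdisj : ∀ a b, a ≠ b → Disjoint (F a) (F b) := by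
    intro a b hab
    rw [Set.disjoint_left]
    intro z hz hz'
    exact hab ((hFsub a hz : β z = a).symm.trans (hFsub b hz' : β z = b))
  have h2 : ∀ a : A, ∃ f : M → ℝ, ContMDiff I 𝓘(ℝ, ℝ) ∞ f ∧
      (∀ z ∈ ⋃ b ∈ {b | b ≠ a}, F b, f z = 0) ∧ (∀ z ∈ F a, f z = 1) := by
    intro a
    have hcl : IsClosed (⋃ b ∈ {b : A | b ≠ a}, F b) :=
      (Set.toFinite _).isClosed_biUnion fun b _ => hFc b
    have hd : Disjoint (⋃ b ∈ {b : A | b ≠ a}, F b) (F a) := by
      rw [Set.disjoint_iUnion₂_left]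
      intro b hb
      exact hdisj b a hb
    obtain ⟨f, hf0, hf1, -⟩ := exists_contMDiffMap_zero_one_of_isClosed I hcl (hFc a) hd
    exact ⟨f, f.contMDiff, fun z hz => hf0 hz, fun z hz => hf1 hz⟩
  choose f hfs hf0 hf1 using h2
  have h3 : ∀ a : A, ∃ t ∈ Ioo (1 / 4 : ℝ) (3 / 4), ∃ C : ℝ, 0 ≤ C ∧ ∀ e : ℝ, 0 < e →
      ν {z | |f a z - t| ≤ e} ≤ ENNReal.ofReal (C * e) := fun a =>
    exists_threshold ν (hfs a).continuous.measurable (by norm_num)
  choose t ht C hC using h3
  let sy : (Fin L → Prop) → A := fun σ =>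
    if h : ∃ l, σ l then e.symm h.choose else Classical.arbitrary A
  refine ⟨L, fun l => f (e.symm l), fun l => t (e.symm l), sy, fun l => hfs _,
    fun l => ⟨C _, hC _⟩, ?_⟩
  have hgood : ∀ a, ∀ z ∈ F a, sy (fun l => t (e.symm l) < f (e.symm l) z) = a := by
    intro a z hz
    have hex : ∃ l, t (e.symm l) < f (e.symm l) z := by
      refine ⟨e a, ?_⟩
      rw [e.symm_apply_apply, hf1 a z hz]
      linarith [(ht a).2]
    have hspec := hex.choose_spec
    have : e.symm hex.choose = a := by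
      by_contra hne
      have h0 : f (e.symm hex.choose) z = 0 := by
        apply hf0
        simp only [mem_iUnion]
        exact ⟨a, fun h => hne h.symm, hz⟩
      rw [h0] at hspec
      linarith [(ht (e.symm hex.choose)).1]
    show (if h : ∃ l, t (e.symm l) < f (e.symm l) z then e.symm h.choose
      else Classical.arbitrary A) = a
    rw [dif_pos hex]
    exact this
  have hsub : {z | sy (fun l => t (e.symm l) < f (e.symm l) z) ≠ β z} ⊆
      ⋃ a, (β ⁻¹' {a} \ F a) := by
    intro z hz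
    simp only [mem_iUnion]
    refine ⟨β z, rfl, fun hzF => hz (hgood (β z) z hzF)⟩
  refine (measure_mono hsub).trans ((measure_iUnion_fintype_le ν _).trans ?_)
  calc ∑ a, ν (β ⁻¹' {a} \ F a) ≤ ∑ _a : A, ENNReal.ofReal (ε / L) :=
        Finset.sum_le_sum fun a _ => (hFν a).le
    _ = ENNReal.ofReal ε := by
        rw [Finset.sum_const, Finset.card_univ, ← hL, nsmul_eq_mul,
          ← ENNReal.ofReal_natCast, ← ENNReal.ofReal_mul (by positivity)]
        congr 1
        field_simp

end Vale.Agent.P109.H703
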