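import Mathlib.Analysis.Calculus.ContDiff.Defs
import Mathlib.Analysis.InnerProductSpace.PiL2
import Mathlib.MeasureTheory.Measure.Haar.InnerProductSpace

/-!
Piecewise smooth systems in Euclidean coordinates: the only thing about smooth models on manifolds
(with or without boundary) which is used by the counting argument.
-/

open MeasureTheory Set Metric
open scoped ENNReal ContDiff

namespace Vale.Agent.P109

/-- Euclidean space -/
abbrev EuS (D : ℕ) : Type := EuclideanSpace ℝ (Fin D)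

/-- A piecewise smooth system in coordinates, of complexity `N` and order `k`, for `(M, ν, S)` and
the coding `α`: every point `z` has a chart index `ch z` and coordinates `x z`. -/
structure PieceSys {M A : Type} [MeasurableSpace M] (ν : Measure M) (S : M → M) (α : M → A)
    (D k N : ℕ) where
  /-- chart index -/
  ch : M → Fin N
  /-- coordinates in the chart `ch z` -/
  x : M → EuS D
  meas_ch : Measurable ch
  meas_x : Measurable x
  meas_α : ∀ a, MeasurableSet (α ⁻¹' {a})
  bound_x : ∀ z, ‖x z‖ ≤ N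
  inj : ∀ z z', ch z = ch z' → x z = x z' → z = z'
  /-- the piece of type `(i, i', a)` in coordinates -/
  C : Fin N → Fin N → A → Set (EuS D)
  C_def : ∀ i i' a, C i i' a = x '' {z | ch z = i ∧ ch (S z) = i' ∧ α z = a}
  meas_C : ∀ i i' a, MeasurableSet (C i i' a)
  /-- the map `S` in coordinates -/
  f : Fin N → Fin N → EuS D → EuS D
  f_x : ∀ z, f (ch z) (ch (S z)) (x z) = x (S z)
  f_smooth : ∀ i i' a, ContDiffOn ℝ k (f i i') (interior (C i i' a))
  f_bound : ∀ i i' a, ∀ y ∈ interior (C i i' a), ∀ m ≤ k, ‖iteratedFDeriv ℝ m (f i i') y‖ ≤ N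
  f_inv : ∀ i i' a, ∀ y ∈ interior (C i i' a), ∀ v, ‖v‖ ≤ N * ‖fderiv ℝ (f i i') y v‖
  /-- densities -/
  dens : Fin N → EuS D → ℝ
  dens_bound : ∀ i i' a, ∀ y ∈ C i i' a, (N : ℝ)⁻¹ ≤ dens i y ∧ dens i y ≤ N
  dens_lip : ∀ i i' a, ∀ y y', segment ℝ y y' ⊆ C i i' a →
    |dens i y - dens i y'| ≤ N * ‖y - y'‖
  vol : ∀ i i' a, ∀ B ⊆ C i i' a, MeasurableSet B →
    ν {z | ch z = i ∧ ch (S z) = i' ∧ α z = a ∧ x z ∈ B} = ∫⁻ y in B, ENNReal.ofReal (dens i y)
  /-- margin -/
  margin : ∀ e : ℝ, 0 < e →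
    ν {z | ¬ closedBall (x z) e ⊆ C (ch z) (ch (S z)) (α z)} ≤ ENNReal.ofReal (N * e)

end Vale.Agent.P109
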