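import Mathlib
import Vale.Agent.P109.H703.Thr

/-!
Finite chart cover of a compact manifold by cores of bump functions, with good thresholds.
-/

open MeasureTheory Set Filter Topology Metric
open scoped ENNReal ContDiff Manifold

namespace Vale.Agent.P109.H703

section
variable {d : ℕ} {H : Type} [TopologicalSpace H]
  (I : ModelWithCorners ℝ (EuclideanSpace ℝ (Fin d)) H)
  {M : Type} [TopologicalSpace M] [ChartedSpace H M] [IsManifold I ∞ M] [T2Space M]
  [CompactSpace M]

theorem exists_bump_cover : ∃ (p : ℕ) (c : Fin p → M) (g : Fin p → M → ℝ),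
    (∀ i, ContMDiff I 𝓘(ℝ, ℝ) ∞ (g i)) ∧ (∀ i, tsupport (g i) ⊆ (chartAt H (c i)).source) ∧
    ∀ y, ∃ i, 3 / 4 < g i y := by
  classical
  let b : ∀ x : M, SmoothBumpFunction I x := fun x => Classical.arbitrary _
  have hb : ∀ x : M, {y | 3 / 4 < b x y} ∈ 𝓝 x := by
    intro x
    have h1 : (3 / 4 : ℝ) < b x x := by rw [(b x).eq_one]; norm_num
    exact ((b x).continuous.continuousAt).eventually (lt_mem_nhds h1)
  obtain ⟨t, ht⟩ := CompactSpace.elim_nhds_subcover (fun x : M => {y | 3 / 4 < b x y}) hb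
  let e := t.equivFin
  refine ⟨t.card, fun i => (e.symm i : M), fun i => b (e.symm i : M), fun i => (b _).contMDiff,
    fun i => (b _).tsupport_subset_chartAt_source, fun y => ?_⟩
  have hy : y ∈ ⋃ x ∈ t, {y | 3 / 4 < b x y} := by rw [ht]; trivial
  simp only [mem_iUnion] at hy
  obtain ⟨x, hx, hyx⟩ := hy
  refine ⟨e ⟨x, hx⟩, ?_⟩
  have h1 : ((e.symm (e ⟨x, hx⟩) : t) : M) = x := by rw [Equiv.symm_apply_apply]
  show 3 / 4 < b (e.symm (e ⟨x, hx⟩) : M) y
  rw [h1]
  exact hyx

/-- cover with thresholds -/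
theorem exists_cover [MeasurableSpace M] [BorelSpace M] (ν : Measure M) [IsProbabilityMeasure ν] :
    ∃ (p : ℕ) (c : Fin p → M) (g : Fin p → M → ℝ) (θ : Fin p → ℝ),
    (∀ i, ContMDiff I 𝓘(ℝ, ℝ) ∞ (g i)) ∧
    (∀ i, {y | 1 / 4 ≤ g i y} ⊆ (chartAt H (c i)).source) ∧
    (∀ i, 1 / 4 < θ i) ∧ (∀ y, ∃ i, θ i < g i y) ∧
    (∀ i, ∃ C : ℝ, 0 ≤ C ∧ ∀ e : ℝ, 0 < e → ν {z | |g i z - θ i| ≤ e} ≤ ENNReal.ofReal (C * e)) := by
  obtain ⟨p, c, g, hg, hs, hc⟩ := exists_bump_cover I (M := M)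
  have hm : ∀ i, Measurable (g i) := fun i => (hg i).continuous.measurable
  have := fun i => exists_threshold ν (hm i) (show (1 / 4 : ℝ) < 3 / 4 by norm_num)
  choose θ hθ hC using this
  refine ⟨p, c, g, θ, hg, fun i y hy => hs i (subset_tsupport _ ?_), fun i => (hθ i).1,
    fun y => ?_, hC⟩
  · simp only [mem_ofPred_eq] at hy
    rw [Function.mem_support]
    intro h0
    rw [h0] at hy
    norm_num at hy
  · obtain ⟨i, hi⟩ := hc y
    exact ⟨i, (hθ i).2.trans hi⟩

/-- a choice of an index of a sign vector -/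
noncomputable def pick {p : ℕ} (i0 : Fin p) (σ : Fin p → Prop) : Fin p :=
  open Classical in if h : ∃ i, σ i then h.choose else i0

theorem pick_spec {p : ℕ} (i0 : Fin p) {σ : Fin p → Prop} (h : ∃ i, σ i) : σ (pick i0 σ) := by
  classical
  unfold pick
  rw [dif_pos h]
  exact h.choose_spec

theorem measurable_signs {Ω : Type*} [MeasurableSpace Ω] {L : ℕ} {u : Fin L → Ω → ℝ}
    (hu : ∀ l, Measurable (u l)) (θ : Fin L → ℝ) {B : Type*} [MeasurableSpace B]
    (s : (Fin L → Prop) → B) : Measurable (fun z => s (fun l => θ l < u l z)) := by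
  have h1 : Measurable (fun z => (fun l => θ l < u l z : Fin L → Prop)) := by
    rw [measurable_pi_iff]
    intro l
    exact measurableSet_setOfPred.1 (measurableSet_lt measurable_const (hu l))
  exact (measurable_of_finite s).comp h1

end

end Vale.Agent.P109.H703
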