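import Mathlib

/-!
Local bounds up to the boundary of a smooth map on a relatively open subset of a closed convex set
with non-empty interior.
-/

open MeasureTheory Set Filter Topology Metric
open scoped ENNReal ContDiff Manifold

namespace Vale.Agent.P109.H703

variable {E G : Type*} [NormedAddCommGroup E] [NormedSpace ℝ E] [FiniteDimensional ℝ E]
  [NormedAddCommGroup G] [NormedSpace ℝ G]

/-- A compact subset of a relatively open subset `W = V ∩ R` of a closed set `R`. -/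
theorem exists_thick {R V C : Set E} (hR : IsClosed R) (hV : IsOpen V) (hC : IsCompact C)
    (hCV : C ⊆ V) :
    ∃ r : ℝ, 0 < r ∧ cthickening r C ∩ R ⊆ V ∩ R ∧ IsCompact (cthickening r C ∩ R) := by
  have : ProperSpace E := FiniteDimensional.proper ℝ E
  obtain ⟨r, hr, hrV⟩ := hC.exists_cthickening_subset_open hV hCV
  exact ⟨r, hr, fun y hy => ⟨hrV hy.1, hy.2⟩, (hC.cthickening).inter_right hR⟩

theorem uniqueDiffOn_rel {R V : Set E} (hR : Convex ℝ R) (hRi : (interior R).Nonempty)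
    (hV : IsOpen V) : UniqueDiffOn ℝ (V ∩ R) := by
  rw [inter_comm]
  exact (uniqueDiffOn_convex hR hRi).inter hV

/-- bounds of all derivatives up to order `k` on a compact subset of a relatively open set -/
theorem exists_deriv_bound {R V T : Set E} (hR : Convex ℝ R) (hRi : (interior R).Nonempty)
    (hV : IsOpen V) (hT : IsCompact T) (hTV : T ⊆ V ∩ R) {F : E → G}
    (hF : ContDiffOn ℝ ∞ F (V ∩ R)) (k : ℕ) :
    ∃ N : ℝ, 0 ≤ N ∧ ∀ m ≤ k, ∀ y ∈ T, y ∈ interior R → ‖iteratedFDeriv ℝ m F y‖ ≤ N := by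
  have hu := uniqueDiffOn_rel hR hRi hV
  have h1 : ∀ m : ℕ, ∃ N : ℝ, ∀ y ∈ T, ‖iteratedFDerivWithin ℝ m F (V ∩ R) y‖ ≤ N := by
    intro m
    have hc : ContinuousOn (iteratedFDerivWithin ℝ m F (V ∩ R)) (V ∩ R) :=
      hF.continuousOn_iteratedFDerivWithin (by exact_mod_cast le_top) hu
    exact hT.exists_bound_of_continuousOn (hc.mono hTV)
  choose N hN using h1
  refine ⟨∑ m ∈ Finset.range (k + 1), |N m|, Finset.sum_nonneg fun _ _ => abs_nonneg _, ?_⟩
  intro m hm y hy hyR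
  have hnb : V ∩ R ∈ 𝓝 y :=
    inter_mem (hV.mem_nhds (hTV hy).1) (mem_interior_iff_mem_nhds.1 hyR)
  have he : iteratedFDerivWithin ℝ m F (V ∩ R) y = iteratedFDeriv ℝ m F y := by
    rw [← iteratedFDerivWithin_univ]
    apply iteratedFDerivWithin_congr_set
    rwa [eventuallyEq_univ]
  rw [← he]
  calc ‖iteratedFDerivWithin ℝ m F (V ∩ R) y‖ ≤ N m := hN m y hy
    _ ≤ |N m| := le_abs_self _
    _ ≤ ∑ m ∈ Finset.range (k + 1), |N m| :=
        Finset.single_le_sum (f := fun m => |N m|) (fun _ _ => abs_nonneg _)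
          (Finset.mem_range.2 (by omega))

/-- Lipschitz bound on the part of a thickening inside the interior -/
theorem exists_lip_bound {R V C : Set E} (hR : Convex ℝ R) (hRi : (interior R).Nonempty)
    (hV : IsOpen V) {r : ℝ} (hT : IsCompact (cthickening r C ∩ R))
    (hTV : cthickening r C ∩ R ⊆ V ∩ R) {F : E → G}
    (hF : ContDiffOn ℝ ∞ F (V ∩ R)) :
    ∃ N : ℝ, 0 ≤ N ∧ ∀ c ∈ C, ∀ y ∈ closedBall c r ∩ interior R, ∀ y' ∈ closedBall c r ∩ interior R,
      ‖F y - F y'‖ ≤ N * ‖y - y'‖ := by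
  obtain ⟨N, hN0, hN⟩ := exists_deriv_bound hR hRi hV hT hTV hF 1
  refine ⟨N, hN0, fun c hc y hy y' hy' => ?_⟩
  have hconv : Convex ℝ (closedBall c r ∩ interior R) :=
    (convex_closedBall c r).inter hR.interior
  have hin : ∀ x ∈ closedBall c r ∩ interior R, x ∈ cthickening r C ∩ R := fun x hx =>
    ⟨closedBall_subset_cthickening hc r hx.1, interior_subset hx.2⟩
  refine hconv.norm_image_sub_le_of_norm_fderiv_le (𝕜 := ℝ) ?_ ?_ hy' hy
  · intro x hx
    have hx' := hTV (hin x hx)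
    have hnb : V ∩ R ∈ 𝓝 x :=
      inter_mem (hV.mem_nhds hx'.1) (mem_interior_iff_mem_nhds.1 hx.2)
    exact (hF.contDiffAt hnb).differentiableAt (by simp)
  · intro x hx
    have := hN 1 le_rfl x (hin x hx) hx.2
    rwa [norm_iteratedFDeriv_one] at this

end Vale.Agent.P109.H703

namespace Vale.Agent.P109.H703

variable {E : Type*} [NormedAddCommGroup E] [NormedSpace ℝ E] [FiniteDimensional ℝ E]

/-- lower bound for the derivative of a map with a smooth left inverse, up to the boundary -/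
theorem exists_inv_bound {R V V' T : Set E} (hR : Convex ℝ R) (hRi : (interior R).Nonempty)
    (hV : IsOpen V) (hV' : IsOpen V') (hT : IsCompact T) (hTV : T ⊆ V ∩ R) {F F' : E → E}
    (hF : ContDiffOn ℝ ∞ F (V ∩ R)) (hF' : ContDiffOn ℝ ∞ F' (V' ∩ R))
    (hmap : MapsTo F (V ∩ R) (V' ∩ R)) (hinv : ∀ y ∈ V ∩ R, F' (F y) = y) :
    ∃ N : ℝ, 0 ≤ N ∧ ∀ y ∈ T, y ∈ interior R → ∀ v : E, ‖v‖ ≤ N * ‖fderiv ℝ F y v‖ := by
  have hu := uniqueDiffOn_rel hR hRi hV
  have hu' := uniqueDiffOn_rel hR hRi hV'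
  have hc : ContinuousOn (fderivWithin ℝ F' (V' ∩ R)) (V' ∩ R) :=
    hF'.continuousOn_fderivWithin hu' (by simp)
  have hFT : IsCompact (F '' T) := hT.image_of_continuousOn (hF.continuousOn.mono hTV)
  have hFT' : F '' T ⊆ V' ∩ R := by
    rintro _ ⟨y, hy, rfl⟩
    exact hmap (hTV hy)
  obtain ⟨N, hN⟩ := hFT.exists_bound_of_continuousOn (hc.mono hFT')
  refine ⟨|N|, abs_nonneg _, fun y hy hyR v => ?_⟩
  have hyV := hTV hy
  have hnb : V ∩ R ∈ 𝓝 y :=
    inter_mem (hV.mem_nhds hyV.1) (mem_interior_iff_mem_nhds.1 hyR)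
  have hd : DifferentiableWithinAt ℝ F (V ∩ R) y :=
    (hF y hyV).differentiableWithinAt (by simp)
  have hd' : DifferentiableWithinAt ℝ F' (V' ∩ R) (F y) :=
    (hF' (F y) (hmap hyV)).differentiableWithinAt (by simp)
  have hcomp : fderivWithin ℝ (F' ∘ F) (V ∩ R) y =
      (fderivWithin ℝ F' (V' ∩ R) (F y)).comp (fderivWithin ℝ F (V ∩ R) y) :=
    fderivWithin_comp y hd' hd hmap (hu y hyV)
  have hid : fderivWithin ℝ (F' ∘ F) (V ∩ R) y = ContinuousLinearMap.id ℝ E := by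
    have h1 : fderivWithin ℝ (F' ∘ F) (V ∩ R) y = fderivWithin ℝ (fun z => z) (V ∩ R) y :=
      fderivWithin_congr (fun z hz => hinv z hz) (hinv y hyV)
    rw [h1]
    exact fderivWithin_fun_id (hu y hyV)
  have hfd : fderivWithin ℝ F (V ∩ R) y = fderiv ℝ F y := fderivWithin_of_mem_nhds hnb
  rw [hid, hfd] at hcomp
  have hv : v = fderivWithin ℝ F' (V' ∩ R) (F y) (fderiv ℝ F y v) := by
    have := congrArg (fun A : E →L[ℝ] E => A v) hcomp
    simpa using this
  calc ‖v‖ = ‖fderivWithin ℝ F' (V' ∩ R) (F y) (fderiv ℝ F y v)‖ := by rw [← hv]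
    _ ≤ ‖fderivWithin ℝ F' (V' ∩ R) (F y)‖ * ‖fderiv ℝ F y v‖ := ContinuousLinearMap.le_opNorm _ _
    _ ≤ |N| * ‖fderiv ℝ F y v‖ :=
        mul_le_mul_of_nonneg_right ((hN _ ⟨y, hy, rfl⟩).trans (le_abs_self _)) (norm_nonneg _)

end Vale.Agent.P109.H703
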