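import Mathlib
import Vale.Agent.P109.H703.Thr
import Vale.Agent.P109.H703.Loc
import Vale.Agent.P109.H703.Cover

/-!
Margins in a chart: near a point of a compact subset of a chart domain finitely many smooth
functions vary by at most `N e` on the closed ball of radius `e`, if that ball does not meet the
boundary.
-/

open MeasureTheory Set Filter Topology Metric
open scoped ENNReal ContDiff Manifold

namespace Vale.Agent.P109.H703

section
variable {d : ℕ} {H : Type} [TopologicalSpace H]
  (I : ModelWithCorners ℝ (EuclideanSpace ℝ (Fin d)) H)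
  {M : Type} [TopologicalSpace M] [ChartedSpace H M]

theorem target_eq (c : M) : ∃ V : Set (EuclideanSpace ℝ (Fin d)), IsOpen V ∧
    (extChartAt I c).target = V ∩ range I :=
  ⟨I.symm ⁻¹' (chartAt H c).target, (chartAt H c).open_target.preimage I.continuous_symm,
    extChartAt_target (I := I) c⟩

theorem contDiffOn_comp_symm [IsManifold I ∞ M] {g : M → ℝ} (hg : ContMDiff I 𝓘(ℝ, ℝ) ∞ g)
    (c : M) : ContDiffOn ℝ ∞ (g ∘ (extChartAt I c).symm) (extChartAt I c).target :=
  contMDiffOn_iff_contDiffOn.1 (hg.comp_contMDiffOn (contMDiffOn_extChartAt_symm c))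

theorem isCompact_chart_image {K : Set M} (hK : IsCompact K) {c : M}
    (hKc : K ⊆ (chartAt H c).source) : IsCompact (extChartAt I c '' K) := by
  apply hK.image_of_continuousOn
  refine (continuousOn_extChartAt c).mono ?_
  rwa [extChartAt_source]

/-- local margins -/
theorem margin_local [IsManifold I ∞ M] {K : Set M} (hK : IsCompact K) {c : M}
    (hKc : K ⊆ (chartAt H c).source) {J : ℕ} {h : Fin J → M → ℝ}
    (hh : ∀ j, ContMDiff I 𝓘(ℝ, ℝ) ∞ (h j)) :
    ∃ r : ℝ, 0 < r ∧ ∃ N : ℝ, 0 ≤ N ∧ ∀ z ∈ K, ∀ e : ℝ, 0 < e → e ≤ r →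
      closedBall (extChartAt I c z) e ⊆ interior (range I) →
      ∀ y ∈ closedBall (extChartAt I c z) e, y ∈ (extChartAt I c).target ∧
        ∀ j, |h j ((extChartAt I c).symm y) - h j z| ≤ N * e := by
  obtain ⟨V, hV, hVt⟩ := target_eq I c
  have hC := isCompact_chart_image I hK hKc
  have hCV : extChartAt I c '' K ⊆ V := by
    rintro _ ⟨z, hz, rfl⟩
    have : extChartAt I c z ∈ (extChartAt I c).target :=
      (extChartAt I c).map_source (by rw [extChartAt_source]; exact hKc hz)
    rw [hVt] at this
    exact this.1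
  obtain ⟨r, hr, hsub, hcomp⟩ := exists_thick I.isClosed_range hV hC hCV
  have hlip : ∀ j, ∃ N : ℝ, 0 ≤ N ∧ ∀ c' ∈ extChartAt I c '' K,
      ∀ y ∈ closedBall c' r ∩ interior (range I), ∀ y' ∈ closedBall c' r ∩ interior (range I),
      ‖(h j ∘ (extChartAt I c).symm) y - (h j ∘ (extChartAt I c).symm) y'‖ ≤ N * ‖y - y'‖ := by
    intro j
    refine exists_lip_bound I.convex_range I.nonempty_interior hV hcomp hsub ?_
    rw [← hVt]
    exact contDiffOn_comp_symm I (hh j) c
  choose N hN0 hN using hlip
  refine ⟨r, hr, ∑ j, N j, Finset.sum_nonneg fun j _ => hN0 j, ?_⟩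
  intro z hz e he her hball y hy
  have hzc : extChartAt I c z ∈ extChartAt I c '' K := mem_image_of_mem _ hz
  have hyr : y ∈ closedBall (extChartAt I c z) r := closedBall_subset_closedBall her hy
  have hyi : y ∈ interior (range I) := hball hy
  refine ⟨?_, fun j => ?_⟩
  · rw [hVt]
    exact hsub ⟨closedBall_subset_cthickening hzc r hyr, interior_subset hyi⟩
  · have h1 := hN j _ hzc y ⟨hyr, hyi⟩ (extChartAt I c z)
      ⟨mem_closedBall_self (he.le.trans her), hball (mem_closedBall_self he.le)⟩
    have h2 : (extChartAt I c).symm (extChartAt I c z) = z :=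
      (extChartAt I c).left_inv (by rw [extChartAt_source]; exact hKc hz)
    simp only [Function.comp_apply, h2, Real.norm_eq_abs] at h1
    refine h1.trans ?_
    have h3 : ‖y - extChartAt I c z‖ ≤ e := by
      rw [← dist_eq_norm]; exact mem_closedBall.1 hy
    calc N j * ‖y - extChartAt I c z‖ ≤ N j * e := mul_le_mul_of_nonneg_left h3 (hN0 j)
      _ ≤ (∑ j, N j) * e := mul_le_mul_of_nonneg_right
          (Finset.single_le_sum (fun j _ => hN0 j) (Finset.mem_univ j)) he.le

end

end Vale.Agent.P109.H703
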