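import Mathlib
import Vale.Agent.P109.H703.Thr
import Vale.Agent.P109.H703.Loc
import Vale.Agent.P109.H703.Cover
import Vale.Agent.P109.H703.Marg
import Vale.Agent.P109.H742.Vol

/-!
The pieces of a smooth model: chart index, coordinates, coding.
-/

open MeasureTheory Set Filter Topology Metric
open scoped ENNReal ContDiff Manifold

namespace Vale.Agent.P109.H703

/-- all choices made for a compact manifold with a probability measure -/
structure Setup {d : ℕ} {H : Type} [TopologicalSpace H]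
    (I : ModelWithCorners ℝ (EuclideanSpace ℝ (Fin d)) H)
    (M : Type) [TopologicalSpace M] [ChartedSpace H M] [MeasurableSpace M]
    (ν : Measure M) (A : Type) where
  p : ℕ
  i0 : Fin p
  c : Fin p → M
  g : Fin p → M → ℝ
  θ : Fin p → ℝ
  hg : ∀ i, ContMDiff I 𝓘(ℝ, ℝ) ∞ (g i)
  hsrc : ∀ i, {y | 1 / 4 ≤ g i y} ⊆ (chartAt H (c i)).source
  hθ : ∀ i, 1 / 4 < θ i
  hcov : ∀ y, ∃ i, θ i < g i y
  hthr : ∀ i, ∃ C : ℝ, 0 ≤ C ∧ ∀ e : ℝ, 0 < e → ν {z | |g i z - θ i| ≤ e} ≤ ENNReal.ofReal (C * e)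
  L : ℕ
  u : Fin L → M → ℝ
  θu : Fin L → ℝ
  sy : (Fin L → Prop) → A
  hu : ∀ l, ContMDiff I 𝓘(ℝ, ℝ) ∞ (u l)
  hthru : ∀ l, ∃ C : ℝ, 0 ≤ C ∧ ∀ e : ℝ, 0 < e →
    ν {z | |u l z - θu l| ≤ e} ≤ ENNReal.ofReal (C * e)

namespace Setup

variable {d : ℕ} {H : Type} [TopologicalSpace H]
    {I : ModelWithCorners ℝ (EuclideanSpace ℝ (Fin d)) H}
    {M : Type} [TopologicalSpace M] [ChartedSpace H M] [MeasurableSpace M]
    {ν : Measure M} {A : Type} (X : Setup I M ν A)

/-- chart index -/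
noncomputable def ch (z : M) : Fin X.p := pick X.i0 (fun i => X.θ i < X.g i z)

/-- coordinates -/
noncomputable def x (z : M) : EuclideanSpace ℝ (Fin d) := extChartAt I (X.c (X.ch z)) z

/-- coding -/
def α (z : M) : A := X.sy (fun l => X.θu l < X.u l z)

/-- cores of the charts -/
def K (i : Fin X.p) : Set M := {y | 1 / 4 ≤ X.g i y}

theorem lt_ch (z : M) : X.θ (X.ch z) < X.g (X.ch z) z :=
  pick_spec X.i0 (X.hcov z)

theorem mem_K {z : M} {i : Fin X.p} (h : X.ch z = i) : z ∈ X.K i := by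
  subst h
  exact (X.hθ _).le.trans (X.lt_ch z).le

theorem mem_source {z : M} {i : Fin X.p} (h : X.ch z = i) : z ∈ (chartAt H (X.c i)).source :=
  X.hsrc i (X.mem_K h)

theorem x_eq {z : M} {i : Fin X.p} (h : X.ch z = i) : X.x z = extChartAt I (X.c i) z := by
  subst h; rfl

theorem symm_x {z : M} {i : Fin X.p} (h : X.ch z = i) :
    (extChartAt I (X.c i)).symm (X.x z) = z := by
  rw [X.x_eq h]
  exact (extChartAt I (X.c i)).left_inv (by rw [extChartAt_source]; exact X.mem_source h)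

theorem x_mem_target {z : M} {i : Fin X.p} (h : X.ch z = i) :
    X.x z ∈ (extChartAt I (X.c i)).target := by
  rw [X.x_eq h]
  exact (extChartAt I (X.c i)).map_source (by rw [extChartAt_source]; exact X.mem_source h)

theorem inj {z z' : M} (h : X.ch z = X.ch z') (hx : X.x z = X.x z') : z = z' := by
  rw [← X.symm_x (i := X.ch z') h, hx, X.symm_x rfl]

theorem isClosed_K (i : Fin X.p) : IsClosed (X.K i) :=
  isClosed_le continuous_const (X.hg i).continuous

theorem isCompact_K [CompactSpace M] (i : Fin X.p) : IsCompact (X.K i) :=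
  (X.isClosed_K i).isCompact

/-- the set of points of type `(i, i', a)` -/
def Q (S : M → M) (i i' : Fin X.p) (a : A) : Set M := {z | X.ch z = i ∧ X.ch (S z) = i' ∧ X.α z = a}

section meas
variable [BorelSpace M]

theorem measurable_g (i : Fin X.p) : Measurable (X.g i) := (X.hg i).continuous.measurable

theorem measurable_u (l : Fin X.L) : Measurable (X.u l) := (X.hu l).continuous.measurable

theorem measurable_ch : Measurable X.ch :=
  measurable_signs X.measurable_g X.θ (pick X.i0)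

theorem measurableSet_α (a : A) : MeasurableSet (X.α ⁻¹' {a}) := by
  let _ : MeasurableSpace A := ⊤
  have h : Measurable X.α := measurable_signs X.measurable_u X.θu X.sy
  exact h trivial

theorem measurableSet_ch (i : Fin X.p) : MeasurableSet {z | X.ch z = i} :=
  X.measurable_ch (measurableSet_singleton i)

theorem measurableSet_Q {S : M → M} (hS : Measurable S) (i i' : Fin X.p) (a : A) :
    MeasurableSet (X.Q S i i' a) :=
  (X.measurableSet_ch i).inter ((hS (X.measurableSet_ch i')).inter (X.measurableSet_α a))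

theorem measurable_x : Measurable X.x := by
  classical
  intro B hB
  have h : X.x ⁻¹' B = ⋃ i : Fin X.p, ({z | X.ch z = i} ∩
      (fun z => if z ∈ {z | X.ch z = i} then extChartAt I (X.c i) z
        else (0 : EuclideanSpace ℝ (Fin d))) ⁻¹' B) := by
    ext z
    simp only [mem_preimage, mem_iUnion, mem_inter_iff, mem_ofPred_eq]
    constructor
    · intro hz
      exact ⟨X.ch z, rfl, by rw [if_pos rfl]; exact hz⟩
    · rintro ⟨i, hi, hz⟩
      rw [if_pos hi] at hz
      rw [X.x_eq hi]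
      exact hz
  rw [h]
  refine MeasurableSet.iUnion fun i => (X.measurableSet_ch i).inter ?_
  have h1 := H742.measurable_extChartAt_ite I (X.c i) (P := {z | X.ch z = i})
    (fun z hz => X.mem_source hz) (X.measurableSet_ch i) hB
  convert h1

omit [BorelSpace M] in
theorem image_Q (S : M → M) (i i' : Fin X.p) (a : A) :
    X.x '' X.Q S i i' a = extChartAt I (X.c i) '' X.Q S i i' a := by
  apply image_congr
  intro z hz
  exact X.x_eq hz.1

theorem measurableSet_C {S : M → M} (hS : Measurable S) (i i' : Fin X.p) (a : A) :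
    MeasurableSet (X.x '' X.Q S i i' a) := by
  rw [X.image_Q]
  exact H742.extChartAt_image_measurable I (X.c i) (fun z hz => X.mem_source hz.1)
    (X.measurableSet_Q hS i i' a)

end meas

theorem C_subset (S : M → M) (i i' : Fin X.p) (a : A) :
    X.x '' X.Q S i i' a ⊆ extChartAt I (X.c i) '' X.K i := by
  rintro _ ⟨z, hz, rfl⟩
  rw [X.x_eq hz.1]
  exact mem_image_of_mem _ (X.mem_K hz.1)

theorem C_subset_target (S : M → M) (i i' : Fin X.p) (a : A) :
    X.x '' X.Q S i i' a ⊆ (extChartAt I (X.c i)).target := by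
  rintro _ ⟨z, hz, rfl⟩
  exact X.x_mem_target hz.1

theorem symm_mem_Q {S : M → M} {i i' : Fin X.p} {a : A} {y : EuclideanSpace ℝ (Fin d)}
    (hy : y ∈ X.x '' X.Q S i i' a) : (extChartAt I (X.c i)).symm y ∈ X.Q S i i' a ∧
      X.x ((extChartAt I (X.c i)).symm y) = y := by
  obtain ⟨z, hz, rfl⟩ := hy
  rw [X.symm_x hz.1]
  exact ⟨hz, rfl⟩

/-- bounded coordinates -/
theorem exists_bound_x [CompactSpace M] : ∃ R : ℝ, ∀ z, ‖X.x z‖ ≤ R := by
  have h : ∀ i : Fin X.p, ∃ R : ℝ, ∀ y ∈ extChartAt I (X.c i) '' X.K i, ‖y‖ ≤ R := fun i =>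
    (isCompact_chart_image I (X.isCompact_K i) (X.hsrc i)).isBounded.exists_norm_le
  choose R hR using h
  refine ⟨∑ i, |R i|, fun z => ?_⟩
  calc ‖X.x z‖ ≤ R (X.ch z) := hR _ _ (by rw [X.x_eq rfl]; exact mem_image_of_mem _ (X.mem_K rfl))
    _ ≤ |R (X.ch z)| := le_abs_self _
    _ ≤ ∑ i, |R i| := Finset.single_le_sum (f := fun i => |R i|) (fun i _ => abs_nonneg _)
        (Finset.mem_univ _)

/-- the measure of a set of points of given type in coordinates -/
theorem vol_Q [BorelSpace M] {ρ : EuclideanSpace ℝ (Fin d) → ℝ} {S : M → M} {i i' : Fin X.p} {a : A}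
    (hρ : ∀ B ⊆ (extChartAt I (X.c i)).target, MeasurableSet B →
      MeasurableSet ((extChartAt I (X.c i)).symm '' B) ∧
      ν ((extChartAt I (X.c i)).symm '' B) = ∫⁻ x in B, ENNReal.ofReal (ρ x))
    {B : Set (EuclideanSpace ℝ (Fin d))} (hB : B ⊆ X.x '' X.Q S i i' a) (hBm : MeasurableSet B) :
    ν {z | X.ch z = i ∧ X.ch (S z) = i' ∧ X.α z = a ∧ X.x z ∈ B} =
      ∫⁻ x in B, ENNReal.ofReal (ρ x) := by
  have h : {z | X.ch z = i ∧ X.ch (S z) = i' ∧ X.α z = a ∧ X.x z ∈ B} =
      (extChartAt I (X.c i)).symm '' B := by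
    ext z
    simp only [mem_ofPred_eq]
    constructor
    · rintro ⟨h1, h2, h3, h4⟩
      exact ⟨X.x z, h4, X.symm_x h1⟩
    · rintro ⟨y, hy, rfl⟩
      obtain ⟨h1, h2⟩ := X.symm_mem_Q (hB hy)
      exact ⟨h1.1, h1.2.1, h1.2.2, by rw [h2]; exact hy⟩
  rw [h]
  exact (hρ B (hB.trans (X.C_subset_target S i i' a)) hBm).2

end Setup

end Vale.Agent.P109.H703
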