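import Mathlib

/-! Transition maps of a diffeomorphism in extended charts. -/

open Set
open scoped ContDiff Manifold

namespace Vale.Agent.P109.H703

section
variable {d : ℕ} {H : Type} [TopologicalSpace H]
  (I : ModelWithCorners ℝ (EuclideanSpace ℝ (Fin d)) H)
  {M : Type} [TopologicalSpace M] [ChartedSpace H M] [IsManifold I ∞ M]

theorem trans_one (Φ : M ≃ₘ^∞⟮I, I⟯ M) (c c' : M) :
    ∃ V : Set (EuclideanSpace ℝ (Fin d)), IsOpen V ∧
      V ∩ range I = (extChartAt I c).target ∩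
        (extChartAt I c).symm ⁻¹' (Φ ⁻¹' (chartAt H c').source) ∧
      ContDiffOn ℝ ∞ (extChartAt I c' ∘ Φ ∘ (extChartAt I c).symm) (V ∩ range I) := by
  have ho : IsOpen (Φ ⁻¹' (chartAt H c').source) :=
    (chartAt H c').open_source.preimage Φ.continuous
  obtain ⟨V', hV', hV'e⟩ := (continuousOn_iff'.1 (continuousOn_extChartAt_symm (I := I) c)) _ ho
  have hV0 : IsOpen (I.symm ⁻¹' (chartAt H c).target) :=
    (chartAt H c).open_target.preimage I.continuous_symm
  have ht : (extChartAt I c).target = (I.symm ⁻¹' (chartAt H c).target) ∩ range I :=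
    extChartAt_target (I := I) c
  refine ⟨V' ∩ (I.symm ⁻¹' (chartAt H c).target), hV'.inter hV0, ?_, ?_⟩
  · rw [inter_assoc, ← ht, ← hV'e, inter_comm]
  · have he : V' ∩ (I.symm ⁻¹' (chartAt H c).target) ∩ range I = (extChartAt I c).target ∩
        (extChartAt I c).symm ⁻¹' (Φ ⁻¹' (chartAt H c').source) := by
      rw [inter_assoc, ← ht, ← hV'e, inter_comm]
    rw [he]
    rw [← contMDiffOn_iff_contDiffOn]
    have h1 : ContMDiffOn 𝓘(ℝ, EuclideanSpace ℝ (Fin d)) I ∞ (Φ ∘ (extChartAt I c).symm)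
        ((extChartAt I c).target ∩ (extChartAt I c).symm ⁻¹' (Φ ⁻¹' (chartAt H c').source)) :=
      (Φ.contMDiff.comp_contMDiffOn (contMDiffOn_extChartAt_symm c)).mono inter_subset_left
    have h2 : ContMDiffOn I 𝓘(ℝ, EuclideanSpace ℝ (Fin d)) ∞ (extChartAt I c')
        (chartAt H c').source := contMDiffOn_extChartAt
    exact h2.comp h1 (fun y hy => hy.2)

/-- (TRANS) -/
theorem trans (Φ : M ≃ₘ^∞⟮I, I⟯ M) (c c' : M) :
    ∃ V V' : Set (EuclideanSpace ℝ (Fin d)), IsOpen V ∧ IsOpen V' ∧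
      V ∩ range I = (extChartAt I c).target ∩
        (extChartAt I c).symm ⁻¹' (Φ ⁻¹' (chartAt H c').source) ∧
      V' ∩ range I = (extChartAt I c').target ∩
        (extChartAt I c').symm ⁻¹' (Φ.symm ⁻¹' (chartAt H c).source) ∧
      ContDiffOn ℝ ∞ (extChartAt I c' ∘ Φ ∘ (extChartAt I c).symm) (V ∩ range I) ∧
      ContDiffOn ℝ ∞ (extChartAt I c ∘ Φ.symm ∘ (extChartAt I c').symm) (V' ∩ range I) ∧
      MapsTo (extChartAt I c' ∘ Φ ∘ (extChartAt I c).symm) (V ∩ range I) (V' ∩ range I) ∧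
      ∀ y ∈ V ∩ range I, (extChartAt I c ∘ Φ.symm ∘ (extChartAt I c').symm)
        ((extChartAt I c' ∘ Φ ∘ (extChartAt I c).symm) y) = y := by
  obtain ⟨V, hV, hVe, hVs⟩ := trans_one I Φ c c'
  obtain ⟨V', hV', hVe', hVs'⟩ := trans_one I Φ.symm c' c
  have key : ∀ y ∈ V ∩ range I, (extChartAt I c').symm
      ((extChartAt I c' ∘ Φ ∘ (extChartAt I c).symm) y) = Φ ((extChartAt I c).symm y) := by
    intro y hy
    rw [hVe] at hy
    exact (extChartAt I c').left_inv (by rw [extChartAt_source]; exact hy.2)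
  have key2 : ∀ y ∈ V ∩ range I, Φ.symm (Φ ((extChartAt I c).symm y)) = (extChartAt I c).symm y :=
    fun y _ => Φ.symm_apply_apply _
  refine ⟨V, V', hV, hV', hVe, hVe', hVs, hVs', ?_, ?_⟩
  · intro y hy
    have hy' := hy
    rw [hVe] at hy'
    rw [hVe']
    refine ⟨(extChartAt I c').map_source (by rw [extChartAt_source]; exact hy'.2), ?_⟩
    simp only [mem_preimage]
    rw [key y hy, key2 y hy]
    have := (extChartAt I c).map_target hy'.1
    rwa [extChartAt_source] at this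
  · intro y hy
    have hy' := hy
    rw [hVe] at hy'
    rw [Function.comp_apply, Function.comp_apply, key y hy, key2 y hy]
    exact (extChartAt I c).right_inv hy'.1

end

end Vale.Agent.P109.H703
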