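import Mathlib
import Vale.Agent.P109.H703.Setup
import Vale.Agent.P109.H703.Trans

/-!
Bounds of the transition maps on the pieces, and the margin estimate.
-/

open MeasureTheory Set Filter Topology Metric
open scoped ENNReal ContDiff Manifold

namespace Vale.Agent.P109.H703.Setup

variable {d : ℕ} {H : Type} [TopologicalSpace H]
    {I : ModelWithCorners ℝ (EuclideanSpace ℝ (Fin d)) H}
    {M : Type} [TopologicalSpace M] [ChartedSpace H M] [MeasurableSpace M]
    {ν : Measure M} {A : Type} (X : Setup I M ν A)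

/-- the diffeomorphism in charts -/
noncomputable def f (S : M → M) (i i' : Fin X.p) : EuclideanSpace ℝ (Fin d) →
    EuclideanSpace ℝ (Fin d) :=
  extChartAt I (X.c i') ∘ S ∘ (extChartAt I (X.c i)).symm

theorem f_x (S : M → M) (z : M) : X.f S (X.ch z) (X.ch (S z)) (X.x z) = X.x (S z) := by
  unfold f
  rw [Function.comp_apply, Function.comp_apply, X.symm_x rfl]
  rfl

theorem f_facts [IsManifold I ∞ M] [CompactSpace M] (Φ : M ≃ₘ^∞⟮I, I⟯ M) (k : ℕ)
    (i i' : Fin X.p) : ∃ N : ℝ, 0 ≤ N ∧ ∀ a : A,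
      ContDiffOn ℝ k (X.f Φ i i') (interior (X.x '' X.Q Φ i i' a)) ∧
      ∀ y ∈ interior (X.x '' X.Q Φ i i' a),
        (∀ m ≤ k, ‖iteratedFDeriv ℝ m (X.f Φ i i') y‖ ≤ N) ∧
        ∀ v, ‖v‖ ≤ N * ‖fderiv ℝ (X.f Φ i i') y v‖ := by
  obtain ⟨V, V', hV, hV', hVe, hVe', hs, hs', hmap, hinv⟩ := trans I Φ (X.c i) (X.c i')
  set K2 : Set M := X.K i ∩ Φ ⁻¹' X.K i' with hK2
  have hK2c : IsCompact K2 := ((X.isClosed_K i).inter ((X.isClosed_K i').preimage Φ.continuous)).isCompact
  have hK2s : K2 ⊆ (chartAt H (X.c i)).source := fun z hz => X.hsrc i hz.1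
  set T := extChartAt I (X.c i) '' K2 with hT
  have hTc : IsCompact T := isCompact_chart_image I hK2c hK2s
  have hTV : T ⊆ V ∩ range I := by
    rintro _ ⟨z, hz, rfl⟩
    rw [hVe]
    have hzs : z ∈ (extChartAt I (X.c i)).source := by
      rw [extChartAt_source]; exact hK2s hz
    refine ⟨(extChartAt I (X.c i)).map_source hzs, ?_⟩
    simp only [mem_preimage]
    rw [(extChartAt I (X.c i)).left_inv hzs]
    exact X.hsrc i' hz.2
  have hCT : ∀ a, X.x '' X.Q Φ i i' a ⊆ T := by
    rintro a _ ⟨z, hz, rfl⟩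
    rw [X.x_eq hz.1]
    exact mem_image_of_mem _ ⟨X.mem_K hz.1, X.mem_K hz.2.1⟩
  obtain ⟨N1, hN1, hb1⟩ := exists_deriv_bound I.convex_range I.nonempty_interior hV hTc hTV hs k
  obtain ⟨N2, hN2, hb2⟩ := exists_inv_bound I.convex_range I.nonempty_interior hV hV' hTc hTV
    hs hs' hmap hinv
  refine ⟨max N1 N2, le_trans hN1 (le_max_left _ _), fun a => ⟨?_, fun y hy => ?_⟩⟩
  · exact (hs.mono (interior_subset.trans ((hCT a).trans hTV))).of_le (by exact_mod_cast le_top)
  · have hyT : y ∈ T := hCT a (interior_subset hy)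
    have hyR : y ∈ interior (range I) :=
      interior_mono (((hCT a).trans hTV).trans inter_subset_right) hy
    refine ⟨fun m hm => (hb1 m hm y hyT hyR).trans (le_max_left _ _), fun v => ?_⟩
    exact (hb2 y hyT hyR v).trans (mul_le_mul_of_nonneg_right (le_max_right _ _) (norm_nonneg _))

/-- geometric form of the margin: all threshold functions are far from their thresholds and the
ball does not meet the boundary -/
theorem margin_geo [IsManifold I ∞ M] [CompactSpace M] (Φ : M ≃ₘ^∞⟮I, I⟯ M) :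
    ∃ r : ℝ, 0 < r ∧ ∃ N : ℝ, 0 ≤ N ∧ ∀ z : M, ∀ e : ℝ, 0 < e → e ≤ r →
      closedBall (X.x z) e ⊆ interior (range I) →
      (∀ l, N * e < |X.g l z - X.θ l|) → (∀ l, N * e < |X.g l (Φ z) - X.θ l|) →
      (∀ l, N * e < |X.u l z - X.θu l|) →
      closedBall (X.x z) e ⊆ X.x '' X.Q Φ (X.ch z) (X.ch (Φ z)) (X.α z) := by
  classical
  -- all functions
  have h1 := fun i : Fin X.p => margin_local I (X.isCompact_K i) (X.hsrc i) X.hg
  have h2 := fun i : Fin X.p => margin_local I (X.isCompact_K i) (X.hsrc i)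
    (h := fun l z => X.g l (Φ z)) (fun l => (X.hg l).comp Φ.contMDiff)
  have h3 := fun i : Fin X.p => margin_local I (X.isCompact_K i) (X.hsrc i) X.hu
  choose r1 hr1 N1 hN1 h1 using h1
  choose r2 hr2 N2 hN2 h2 using h2
  choose r3 hr3 N3 hN3 h3 using h3
  have hne : (Finset.univ : Finset (Fin X.p)).Nonempty := ⟨X.i0, Finset.mem_univ _⟩
  refine ⟨Finset.univ.inf' hne (fun i => min (r1 i) (min (r2 i) (r3 i))), ?_,
    ∑ i, (N1 i + N2 i + N3 i), Finset.sum_nonneg fun i _ => by
      have := hN1 i; have := hN2 i; have := hN3 i; positivity, ?_⟩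
  · rw [Finset.lt_inf'_iff]
    intro i _
    exact lt_min (hr1 i) (lt_min (hr2 i) (hr3 i))
  intro z e he her hball hg hg' hu y hy
  set i := X.ch z with hi
  have her' : e ≤ min (r1 i) (min (r2 i) (r3 i)) :=
    her.trans (Finset.inf'_le _ (Finset.mem_univ i))
  have hsum : N1 i + N2 i + N3 i ≤ ∑ i, (N1 i + N2 i + N3 i) :=
    Finset.single_le_sum (f := fun i => N1 i + N2 i + N3 i)
      (fun i _ => by have := hN1 i; have := hN2 i; have := hN3 i; positivity) (Finset.mem_univ i)
  have hxz : X.x z = extChartAt I (X.c i) z := X.x_eq rfl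
  rw [hxz] at hball hy
  have hzK : z ∈ X.K i := X.mem_K rfl
  obtain ⟨hyt, a1⟩ := h1 i z hzK e he (her'.trans (min_le_left _ _)) hball y hy
  obtain ⟨_, a2⟩ := h2 i z hzK e he (her'.trans ((min_le_right _ _).trans (min_le_left _ _)))
    hball y hy
  obtain ⟨_, a3⟩ := h3 i z hzK e he (her'.trans ((min_le_right _ _).trans (min_le_right _ _)))
    hball y hy
  set z' := (extChartAt I (X.c i)).symm y with hz'
  have hle1 : N1 i * e ≤ (∑ i, (N1 i + N2 i + N3 i)) * e :=
    mul_le_mul_of_nonneg_right (by have := hN2 i; have := hN3 i; linarith) he.le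
  have hle2 : N2 i * e ≤ (∑ i, (N1 i + N2 i + N3 i)) * e :=
    mul_le_mul_of_nonneg_right (by have := hN1 i; have := hN3 i; linarith) he.le
  have hle3 : N3 i * e ≤ (∑ i, (N1 i + N2 i + N3 i)) * e :=
    mul_le_mul_of_nonneg_right (by have := hN1 i; have := hN2 i; linarith) he.le
  have sgn : ∀ a b t N : ℝ, |a - b| ≤ N → N < |b - t| → ((t < a) ↔ (t < b)) := by
    intro a b t N h h'
    rw [abs_le] at h
    rcases lt_abs.1 h' with h'' | h''
    · constructor <;> intro _ <;> linarith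
    · constructor <;> intro _ <;> linarith
  have s1 : (fun l => X.θ l < X.g l z') = (fun l => X.θ l < X.g l z) := by
    funext l
    exact propext (sgn _ _ _ _ ((a1 l).trans hle1) (hg l))
  have s2 : (fun l => X.θ l < X.g l (Φ z')) = (fun l => X.θ l < X.g l (Φ z)) := by
    funext l
    exact propext (sgn _ _ _ _ ((a2 l).trans hle2) (hg' l))
  have s3 : (fun l => X.θu l < X.u l z') = (fun l => X.θu l < X.u l z) := by
    funext l
    exact propext (sgn _ _ _ _ ((a3 l).trans hle3) (hu l))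
  have c1 : X.ch z' = X.ch z := by unfold ch; rw [s1]
  have c2 : X.ch (Φ z') = X.ch (Φ z) := by unfold ch; rw [s2]
  have c3 : X.α z' = X.α z := by unfold α; rw [s3]
  refine ⟨z', ⟨c1, c2, c3⟩, ?_⟩
  rw [X.x_eq (i := i) c1, hz']
  exact (extChartAt I (X.c i)).right_inv hyt

end Vale.Agent.P109.H703.Setup
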