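import Mathlib
import Vale.Agent.P109.F674.Model
import Vale.Agent.P109.H703.PieceSys
import Vale.Agent.P109.H703.Pieces
import Vale.Agent.P109.H742.Dens

/-!
Smooth models give piecewise smooth systems.
-/

open MeasureTheory Set Filter Topology Metric
open scoped ENNReal ContDiff Manifold

namespace Vale.Agent.P109.H703

open Vale.Agent.P109.Smooth

/-- measure of the collar of the model half space -/
def Collar {d : ℕ} {H : Type} [TopologicalSpace H]
    (I : ModelWithCorners ℝ (EuclideanSpace ℝ (Fin d)) H) : Prop :=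
  ∀ R : ℝ, ∃ C : ℝ, 0 ≤ C ∧ ∀ s : ℝ, 0 < s →
    volume {x : EuclideanSpace ℝ (Fin d) | ‖x‖ ≤ R ∧ x ∈ range I ∧
      ¬ closedBall x s ⊆ interior (range I)} ≤ ENNReal.ofReal (C * s)

theorem measure_iUnion_ofReal_le {Ω ι : Type*} [MeasurableSpace Ω] [Fintype ι] (μ : Measure Ω)
    (s : ι → Set Ω) (a : ι → ℝ) (ha : ∀ i, 0 ≤ a i) (h : ∀ i, μ (s i) ≤ ENNReal.ofReal (a i)) :
    μ (⋃ i, s i) ≤ ENNReal.ofReal (∑ i, a i) := by
  refine (measure_iUnion_fintype_le μ s).trans ?_
  rw [ENNReal.ofReal_sum_of_nonneg fun i _ => ha i]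
  exact Finset.sum_le_sum fun i _ => h i

namespace Setup

variable {d : ℕ} {H : Type} [TopologicalSpace H]
    {I : ModelWithCorners ℝ (EuclideanSpace ℝ (Fin d)) H}
    {M : Type} [TopologicalSpace M] [ChartedSpace H M] [MeasurableSpace M]
    {ν : Measure M} {A : Type} (X : Setup I M ν A)

theorem margin_measure [BorelSpace M] [IsManifold I ∞ M] [CompactSpace M]
    [IsProbabilityMeasure ν] (hν : SmoothPositiveVolume I M ν) (hcol : Collar I)
    (Φ : M ≃ₘ^∞⟮I, I⟯ M) (hΦ : MeasurePreserving Φ ν ν) :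
    ∃ C : ℝ, 0 ≤ C ∧ ∀ e : ℝ, 0 < e →
      ν {z | ¬ closedBall (X.x z) e ⊆ X.x '' X.Q Φ (X.ch z) (X.ch (Φ z)) (X.α z)} ≤
        ENNReal.ofReal (C * e) := by
  obtain ⟨r, hr, N, hN, hgeo⟩ := X.margin_geo Φ
  have hc := fun i : Fin X.p => H742.collar_measure I hν hcol (X.isCompact_K i) (X.hsrc i)
  choose Cc hCc hc using hc
  choose Cg hCg hg using X.hthr
  choose Cu hCu hu using X.hthru
  set C0 : ℝ := ∑ i, Cc i + ∑ l, Cg l * (N + 1) + ∑ l, Cg l * (N + 1) + ∑ l, Cu l * (N + 1)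
    with hC0
  have hs1 : 0 ≤ ∑ i, Cc i := Finset.sum_nonneg fun i _ => hCc i
  have hs2 : 0 ≤ ∑ l, Cg l * (N + 1) :=
    Finset.sum_nonneg fun i _ => mul_nonneg (hCg i) (by linarith)
  have hs3 : 0 ≤ ∑ l, Cu l * (N + 1) :=
    Finset.sum_nonneg fun i _ => mul_nonneg (hCu i) (by linarith)
  have hC0' : 0 ≤ C0 := by rw [hC0]; linarith
  refine ⟨max C0 (1 / r), le_trans hC0' (le_max_left _ _), fun e he => ?_⟩
  by_cases her : e ≤ r
  · have hN1 : 0 < (N + 1) * e := mul_pos (by linarith) he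
    have hle : N * e ≤ (N + 1) * e := mul_le_mul_of_nonneg_right (by linarith) he.le
    have hsub : {z | ¬ closedBall (X.x z) e ⊆ X.x '' X.Q Φ (X.ch z) (X.ch (Φ z)) (X.α z)} ⊆
        (⋃ i, {z | z ∈ X.K i ∧ ¬ closedBall (extChartAt I (X.c i) z) e ⊆ interior (range I)}) ∪
        (⋃ l, {z | |X.g l z - X.θ l| ≤ (N + 1) * e}) ∪
        (⋃ l, Φ ⁻¹' {z | |X.g l z - X.θ l| ≤ (N + 1) * e}) ∪
        (⋃ l, {z | |X.u l z - X.θu l| ≤ (N + 1) * e}) := by
      intro z hz
      by_contra hcon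
      simp only [mem_union, mem_iUnion, mem_preimage, mem_ofPred_eq, not_or, not_exists,
        not_and, not_not, not_le] at hcon
      obtain ⟨⟨⟨h1, h2⟩, h3⟩, h4⟩ := hcon
      apply hz
      refine hgeo z e he her ?_ (fun l => hle.trans_lt (h2 l)) (fun l => hle.trans_lt (h3 l))
        (fun l => hle.trans_lt (h4 l))
      rw [X.x_eq rfl]
      exact h1 (X.ch z) (X.mem_K rfl)
    have b1 : ν (⋃ i, {z | z ∈ X.K i ∧
        ¬ closedBall (extChartAt I (X.c i) z) e ⊆ interior (range I)}) ≤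
        ENNReal.ofReal (∑ i, Cc i * e) :=
      measure_iUnion_ofReal_le ν _ _ (fun i => mul_nonneg (hCc i) he.le) (fun i => hc i e he)
    have b2 : ν (⋃ l, {z | |X.g l z - X.θ l| ≤ (N + 1) * e}) ≤
        ENNReal.ofReal (∑ l, Cg l * ((N + 1) * e)) :=
      measure_iUnion_ofReal_le ν _ _ (fun i => mul_nonneg (hCg i) hN1.le) (fun l => hg l _ hN1)
    have b3 : ν (⋃ l, Φ ⁻¹' {z | |X.g l z - X.θ l| ≤ (N + 1) * e}) ≤
        ENNReal.ofReal (∑ l, Cg l * ((N + 1) * e)) := by
      refine measure_iUnion_ofReal_le ν _ _ (fun i => mul_nonneg (hCg i) hN1.le) (fun l => ?_)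
      have hms : MeasurableSet {z | |X.g l z - X.θ l| ≤ (N + 1) * e} :=
        measurableSet_le (((X.measurable_g l).sub_const _).abs) measurable_const
      rw [hΦ.measure_preimage hms.nullMeasurableSet]
      exact hg l _ hN1
    have b4 : ν (⋃ l, {z | |X.u l z - X.θu l| ≤ (N + 1) * e}) ≤
        ENNReal.ofReal (∑ l, Cu l * ((N + 1) * e)) :=
      measure_iUnion_ofReal_le ν _ _ (fun i => mul_nonneg (hCu i) hN1.le) (fun l => hu l _ hN1)
    have e1 : ∑ i, Cc i * e = (∑ i, Cc i) * e := by rw [Finset.sum_mul]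
    have e2 : ∑ l, Cg l * ((N + 1) * e) = (∑ l, Cg l * (N + 1)) * e := by
      rw [Finset.sum_mul]; exact Finset.sum_congr rfl fun _ _ => by ring
    have e3 : ∑ l, Cu l * ((N + 1) * e) = (∑ l, Cu l * (N + 1)) * e := by
      rw [Finset.sum_mul]; exact Finset.sum_congr rfl fun _ _ => by ring
    rw [e1] at b1
    rw [e2] at b2 b3
    rw [e3] at b4
    calc _ ≤ _ := measure_mono hsub
      _ ≤ ENNReal.ofReal ((∑ i, Cc i) * e) + ENNReal.ofReal ((∑ l, Cg l * (N + 1)) * e) +
          ENNReal.ofReal ((∑ l, Cg l * (N + 1)) * e) +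
          ENNReal.ofReal ((∑ l, Cu l * (N + 1)) * e) := by
          refine (measure_union_le _ _).trans (add_le_add ?_ b4)
          refine (measure_union_le _ _).trans (add_le_add ?_ b3)
          exact (measure_union_le _ _).trans (add_le_add b1 b2)
      _ = ENNReal.ofReal (C0 * e) := by
          rw [← ENNReal.ofReal_add (by positivity) (by positivity),
            ← ENNReal.ofReal_add (by positivity) (by positivity),
            ← ENNReal.ofReal_add (by positivity) (by positivity)]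
          congr 1
          rw [hC0]; ring
      _ ≤ ENNReal.ofReal (max C0 (1 / r) * e) :=
          ENNReal.ofReal_le_ofReal (mul_le_mul_of_nonneg_right (le_max_left _ _) he.le)
  · rw [not_le] at her
    refine prob_le_one.trans ?_
    rw [← ENNReal.ofReal_one]
    apply ENNReal.ofReal_le_ofReal
    have h1 : (1 : ℝ) ≤ 1 / r * e := by
      rw [one_div, inv_mul_eq_div, le_div_iff₀ hr]; linarith
    exact h1.trans (mul_le_mul_of_nonneg_right (le_max_right _ _) he.le)

end Setup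

end Vale.Agent.P109.H703
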