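import Mathlib
import Vale.Agent.P109.H703.Assemble
import Vale.Agent.P109.CH469.LocModel

/-!
Smooth models give local models (structure `CH469.LocModel`).
-/

open MeasureTheory Set Filter Topology Metric
open scoped ENNReal ContDiff Manifold

namespace Vale.Agent.P109.H703

open Vale.Agent.P109.Smooth

namespace Setup

variable {d : ℕ} {H : Type} [TopologicalSpace H]
    {I : ModelWithCorners ℝ (EuclideanSpace ℝ (Fin d)) H}
    {M : Type} [TopologicalSpace M] [ChartedSpace H M] [MeasurableSpace M]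
    {ν : Measure M} {A : Type} (X : Setup I M ν A)

/-- label as a function of the signs -/
noncomputable def lab (σ : Fin (X.p + X.L) → Bool) : Fin X.p × A :=
  (pick X.i0 (fun i => σ (Fin.castAdd X.L i) = true),
    X.sy (fun l => σ (Fin.natAdd X.p l) = true))

/-- decision functions -/
noncomputable def G (l : Fin (X.p + X.L)) (z : M) : ℝ :=
  Fin.addCases (fun i => X.g i z - X.θ i) (fun l => X.u l z - X.θu l) l

@[simp] theorem G_castAdd (i : Fin X.p) (z : M) : X.G (Fin.castAdd X.L i) z = X.g i z - X.θ i := by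
  simp [G]

@[simp] theorem G_natAdd (l : Fin X.L) (z : M) : X.G (Fin.natAdd X.p l) z = X.u l z - X.θu l := by
  simp [G]

theorem lab_G (z : M) [∀ l, Decidable (0 < X.G l z)] :
    X.lab (fun l => decide (0 < X.G l z)) = (X.ch z, X.α z) := by
  unfold lab ch α
  simp

theorem G_smooth (l : Fin (X.p + X.L)) : ContMDiff I 𝓘(ℝ, ℝ) ∞ (X.G l) := by
  refine Fin.addCases (fun i => ?_) (fun l => ?_) l
  · have : X.G (Fin.castAdd X.L i) = fun z => X.g i z - X.θ i := by
      funext z; simp
    rw [this]
    exact (X.hg i).sub contMDiff_const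
  · have : X.G (Fin.natAdd X.p l) = fun z => X.u l z - X.θu l := by
      funext z; simp
    rw [this]
    exact (X.hu l).sub contMDiff_const

theorem G_thr (l : Fin (X.p + X.L)) : ∃ C : ℝ, 0 ≤ C ∧ ∀ e : ℝ, 0 < e →
    ν {z | |X.G l z| ≤ e} ≤ ENNReal.ofReal (C * e) := by
  refine Fin.addCases (fun i => ?_) (fun l => ?_) l
  · simpa using X.hthr i
  · simpa using X.hthru l

/-- chart domains -/
def dom (i : Fin X.p) : Set (EuclideanSpace ℝ (Fin d)) := interior (extChartAt I (X.c i)).target

theorem dom_subset (i : Fin X.p) : X.dom i ⊆ (extChartAt I (X.c i)).target := interior_subset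

theorem isOpen_dom (i : Fin X.p) : IsOpen (X.dom i) := isOpen_interior

/-- domains of the transition maps -/
def Dom (S : M → M) (i i' : Fin X.p) : Set (EuclideanSpace ℝ (Fin d)) :=
  X.dom i ∩ (extChartAt I (X.c i)).symm ⁻¹' (S ⁻¹' (chartAt H (X.c i')).source)

theorem isOpen_Dom {S : M → M} (hS : Continuous S) (i i' : Fin X.p) : IsOpen (X.Dom S i i') :=
  ((continuousOn_extChartAt_symm (I := I) (X.c i)).mono (X.dom_subset i)).isOpen_inter_preimage
    (X.isOpen_dom i) ((chartAt H (X.c i')).open_source.preimage hS)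

theorem symm_mem_source {i : Fin X.p} {x : EuclideanSpace ℝ (Fin d)}
    (hx : x ∈ (extChartAt I (X.c i)).target) :
    (extChartAt I (X.c i)).symm x ∈ (chartAt H (X.c i)).source := by
  have := (extChartAt I (X.c i)).map_target hx
  rwa [extChartAt_source] at this

theorem interior_iff [IsManifold I ∞ M] {i : Fin X.p} {z : M}
    (hz : z ∈ (chartAt H (X.c i)).source) :
    I.IsInteriorPoint z ↔ extChartAt I (X.c i) z ∈ X.dom i :=
  I.isInteriorPoint_iff_of_mem_atlas (n := ∞) (by simp) (chart_mem_atlas H _) hz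

theorem f_maps [IsManifold I ∞ M] (Φ : M ≃ₘ^∞⟮I, I⟯ M) {i i' : Fin X.p}
    {x : EuclideanSpace ℝ (Fin d)} (hx : x ∈ X.Dom Φ i i') : X.f Φ i i' x ∈ X.dom i' := by
  have hxt := X.dom_subset i hx.1
  have h1 : I.IsInteriorPoint ((extChartAt I (X.c i)).symm x) := by
    rw [X.interior_iff (X.symm_mem_source hxt), (extChartAt I (X.c i)).right_inv hxt]
    exact hx.1
  have h2 : (extChartAt I (X.c i)).symm x ∈ Φ ⁻¹' I.interior M := by
    rw [Φ.preimage_interior (by simp)]
    exact h1
  have h3 : I.IsInteriorPoint (Φ ((extChartAt I (X.c i)).symm x)) := h2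
  exact (X.interior_iff hx.2).1 h3

theorem f_dyn (S : M → M) {i i' : Fin X.p}
    {x : EuclideanSpace ℝ (Fin d)} (hx : x ∈ X.Dom S i i') :
    (extChartAt I (X.c i')).symm (X.f S i i' x) = S ((extChartAt I (X.c i)).symm x) :=
  (extChartAt I (X.c i')).left_inv (by rw [extChartAt_source]; exact hx.2)

theorem f_smooth [IsManifold I ∞ M] (Φ : M ≃ₘ^∞⟮I, I⟯ M) (i i' : Fin X.p) :
    ContDiffOn ℝ ∞ (X.f Φ i i') (X.Dom Φ i i') := by
  obtain ⟨V, V', hV, hV', hVe, hVe', hs, hs', hmap, hinv⟩ := trans I Φ (X.c i) (X.c i')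
  refine hs.mono ?_
  rw [hVe]
  exact fun x hx => ⟨X.dom_subset i hx.1, hx.2⟩

open Classical in
/-- the local model of a smooth model -/
noncomputable def toLoc [BorelSpace M] [IsManifold I ∞ M] (Φ : M ≃ₘ^∞⟮I, I⟯ M)
    (ρ : Fin X.p → EuclideanSpace ℝ (Fin d) → ℝ)
    (hρ1 : ∀ i, ContDiffOn ℝ ∞ (ρ i) (extChartAt I (X.c i)).target)
    (hρ3 : ∀ i, ∀ B ⊆ (extChartAt I (X.c i)).target, MeasurableSet B →
      MeasurableSet ((extChartAt I (X.c i)).symm '' B) ∧
      ν ((extChartAt I (X.c i)).symm '' B) = ∫⁻ x in B, ENNReal.ofReal (ρ i x)) :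
    CH469.LocModel A d X.p (X.p + X.L) X.lab M ν Φ where
  psi := fun i x => if x ∈ X.dom i then (extChartAt I (X.c i)).symm x else X.c X.i0
  phi := fun i z => if z ∈ (chartAt H (X.c i)).source then extChartAt I (X.c i) z else 0
  dom := X.dom
  dens := fun i x => if x ∈ X.dom i then ρ i x else 0
  Dom := X.Dom Φ
  f := X.f Φ
  g := X.G
  psi_meas := fun i => H742.measurable_extChartAt_symm_ite I (X.c i) _ (X.dom_subset i)
    (X.isOpen_dom i).measurableSet
  phi_meas := fun i => H742.measurable_extChartAt_ite I (X.c i) Subset.rfl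
    (chartAt H (X.c i)).open_source.measurableSet
  S_meas := Φ.continuous.measurable
  g_meas := fun l => (X.G_smooth l).continuous.measurable
  dens_meas := fun i => H742.measurable_ite_const ((hρ1 i).continuousOn.mono (X.dom_subset i))
    (X.isOpen_dom i).measurableSet 0
  dom_open := X.isOpen_dom
  Dom_open := fun i i' => X.isOpen_Dom Φ.continuous i i'
  Dom_sub := fun i i' => inter_subset_left
  f_smooth := X.f_smooth Φ
  f_maps := fun i i' x hx => X.f_maps Φ hx
  phi_psi := fun i x hx => by
    rw [if_pos hx, if_pos (X.symm_mem_source (X.dom_subset i hx))]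
    exact (extChartAt I (X.c i)).right_inv (X.dom_subset i hx)
  dyn := fun i i' x hx => by
    rw [if_pos hx.1, if_pos (X.f_maps Φ hx), X.f_dyn Φ hx]
  image_meas := fun i B hB hBm => by
    have h : (fun x => if x ∈ X.dom i then (extChartAt I (X.c i)).symm x else X.c X.i0) '' B =
        (extChartAt I (X.c i)).symm '' B := by
      apply image_congr
      intro x hx
      rw [if_pos (hB hx)]
    rw [h]
    exact (hρ3 i B (hB.trans (X.dom_subset i)) hBm).1
  image_vol := fun i B hB hBm => by
    have h : (fun x => if x ∈ X.dom i then (extChartAt I (X.c i)).symm x else X.c X.i0) '' B =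
        (extChartAt I (X.c i)).symm '' B := by
      apply image_congr
      intro x hx
      rw [if_pos (hB hx)]
    rw [h, (hρ3 i B (hB.trans (X.dom_subset i)) hBm).2]
    apply setLIntegral_congr_fun hBm
    intro x hx
    simp only
    rw [if_pos (hB hx)]

end Setup

end Vale.Agent.P109.H703
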