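import Mathlib
import Vale.Agent.P109.H703.ToLoc

/-!
Regularity of the local model of a smooth model.
-/

open MeasureTheory Set Filter Topology Metric
open scoped ENNReal ContDiff Manifold

namespace Vale.Agent.P109.H703

open Vale.Agent.P109.Smooth

namespace Setup

variable {d : ℕ} {H : Type} [TopologicalSpace H]
    {I : ModelWithCorners ℝ (EuclideanSpace ℝ (Fin d)) H}
    {M : Type} [TopologicalSpace M] [ChartedSpace H M] [MeasurableSpace M]
    {ν : Measure M} {A : Type} (X : Setup I M ν A)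

/-- all bounds on full balls, for a pair of charts -/
theorem flag_local [BorelSpace M] [IsManifold I ∞ M] [CompactSpace M] (Φ : M ≃ₘ^∞⟮I, I⟯ M)
    (ρ : Fin X.p → EuclideanSpace ℝ (Fin d) → ℝ)
    (hρ1 : ∀ i, ContDiffOn ℝ ∞ (ρ i) (extChartAt I (X.c i)).target)
    (hρ2 : ∀ i, ∀ x ∈ (extChartAt I (X.c i)).target, 0 < ρ i x)
    (hρ3 : ∀ i, ∀ B ⊆ (extChartAt I (X.c i)).target, MeasurableSet B →
      MeasurableSet ((extChartAt I (X.c i)).symm '' B) ∧
      ν ((extChartAt I (X.c i)).symm '' B) = ∫⁻ x in B, ENNReal.ofReal (ρ i x))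
    (i i' : Fin X.p) :
    ∃ r : ℝ, 0 < r ∧ ∃ B0 : ℝ, 1 ≤ B0 ∧ ∀ z, X.ch z = i → X.ch (Φ z) = i' → ∀ s : ℝ, 0 < s →
      s ≤ r → closedBall (X.x z) s ⊆ interior (range I) → ∀ N : ℝ, B0 ≤ N →
      (X.toLoc Φ ρ hρ1 hρ3).Flag N i i' (X.x z) s := by
  classical
  obtain ⟨V, V', hV, hV', hVe, hVe', hs, hs', hmap, hinv⟩ := trans I Φ (X.c i) (X.c i')
  set K2 : Set M := X.K i ∩ Φ ⁻¹' X.K i' with hK2
  have hK2c : IsCompact K2 :=
    ((X.isClosed_K i).inter ((X.isClosed_K i').preimage Φ.continuous)).isCompact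
  have hK2s : K2 ⊆ (chartAt H (X.c i)).source := fun z hz => X.hsrc i hz.1
  set T0 := extChartAt I (X.c i) '' K2 with hT0
  have hT0c : IsCompact T0 := isCompact_chart_image I hK2c hK2s
  have hT0V : T0 ⊆ V ∩ range I := by
    rintro _ ⟨z, hz, rfl⟩
    rw [hVe]
    have hzs : z ∈ (extChartAt I (X.c i)).source := by
      rw [extChartAt_source]; exact hK2s hz
    refine ⟨(extChartAt I (X.c i)).map_source hzs, ?_⟩
    simp only [mem_preimage]
    rw [(extChartAt I (X.c i)).left_inv hzs]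
    exact X.hsrc i' hz.2
  obtain ⟨r, hr, hTV, hTc⟩ := exists_thick I.isClosed_range hV hT0c
    (hT0V.trans inter_subset_left)
  set T := cthickening r T0 ∩ range I with hT
  have hVt : V ∩ range I ⊆ (extChartAt I (X.c i)).target := by
    rw [hVe]; exact inter_subset_left
  -- bounds
  obtain ⟨R, hR⟩ := hTc.isBounded.exists_norm_le
  obtain ⟨N1, hN1, hb1⟩ := exists_deriv_bound I.convex_range I.nonempty_interior hV hTc hTV hs
    (2 * d + 4)
  obtain ⟨N2, hN2, hb2⟩ := exists_inv_bound I.convex_range I.nonempty_interior hV hV' hTc hTV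
    hs hs' hmap hinv
  have h3 : ∀ l, ∃ N3 : ℝ, ∀ z, |X.G l z| ≤ N3 := by
    intro l
    obtain ⟨C, hC⟩ := isCompact_univ.exists_bound_of_continuousOn
      (X.G_smooth l).continuous.continuousOn
    exact ⟨C, fun z => by simpa using hC z (mem_univ z)⟩
  choose N3 hb3 using h3
  have h4 : ∀ l, ∃ N4 : ℝ, 0 ≤ N4 ∧ ∀ c' ∈ T0, ∀ y ∈ closedBall c' r ∩ interior (range I),
      ∀ y' ∈ closedBall c' r ∩ interior (range I),
      ‖(X.G l ∘ (extChartAt I (X.c i)).symm) y - (X.G l ∘ (extChartAt I (X.c i)).symm) y'‖ ≤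
        N4 * ‖y - y'‖ := fun l =>
    exists_lip_bound I.convex_range I.nonempty_interior hV hTc hTV
      ((contDiffOn_comp_symm I (X.G_smooth l) (X.c i)).mono hVt)
  choose N4 hN4 hb4 using h4
  obtain ⟨N5, hN5, hb5⟩ := exists_lip_bound (C := T0) I.convex_range I.nonempty_interior hV hTc hTV
    ((hρ1 i).mono hVt)
  have hK3 : IsCompact ((extChartAt I (X.c i)).symm '' T) :=
    hTc.image_of_continuousOn ((continuousOn_extChartAt_symm (X.c i)).mono (hTV.trans hVt))
  have hK3s : (extChartAt I (X.c i)).symm '' T ⊆ (chartAt H (X.c i)).source := by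
    rintro _ ⟨x, hx, rfl⟩
    exact X.symm_mem_source (hVt (hTV hx))
  obtain ⟨N6, hN6, hb6, -⟩ := H742.dens_bounds I hK3 hK3s (hρ1 i) (hρ2 i)
  set B0 : ℝ := |R| + N1 + N2 + ∑ l, |N3 l| + ∑ l, N4 l + N5 + N6 with hB0
  have hs3 : 0 ≤ ∑ l, |N3 l| := Finset.sum_nonneg fun _ _ => abs_nonneg _
  have hs4 : 0 ≤ ∑ l, N4 l := Finset.sum_nonneg fun l _ => hN4 l
  have hR0 := abs_nonneg R
  refine ⟨r, hr, B0, by linarith, ?_⟩
  intro z hz hz' s hs0 hsr hball N hN
  have hzT : X.x z ∈ T0 := by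
    rw [X.x_eq hz]
    exact mem_image_of_mem _ ⟨X.mem_K hz, X.mem_K hz'⟩
  have hin : ∀ x ∈ closedBall (X.x z) s, x ∈ T ∧ x ∈ interior (range I) ∧
      x ∈ closedBall (X.x z) r := by
    intro x hx
    have h1 : x ∈ closedBall (X.x z) r := closedBall_subset_closedBall hsr hx
    exact ⟨⟨closedBall_subset_cthickening hzT r h1, interior_subset (hball hx)⟩, hball hx, h1⟩
  have hDom : closedBall (X.x z) s ⊆ X.Dom Φ i i' := by
    intro x hx
    obtain ⟨h1, h2, -⟩ := hin x hx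
    refine ⟨?_, ?_⟩
    · have ho : IsOpen (V ∩ interior (range I)) := hV.inter isOpen_interior
      refine interior_maximal ?_ ho ⟨(hTV h1).1, h2⟩
      exact (inter_subset_inter_right _ interior_subset).trans hVt
    · have := hTV h1
      rw [hVe] at this
      exact this.2
  have hdom : ∀ x ∈ closedBall (X.x z) s, x ∈ X.dom i := fun x hx => (hDom hx).1
  refine ⟨hDom, fun x hx => ?_⟩
  obtain ⟨hx1, hx2, hx3⟩ := hin x hx
  have hxd := hdom x hx
  refine ⟨?_, ?_, ?_, ?_, ?_, ?_, ?_, ?_⟩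
  · exact (hR x hx1).trans ((le_abs_self R).trans (by linarith))
  · intro m hm
    exact (hb1 m hm x hx1 hx2).trans (by linarith)
  · intro v
    exact (hb2 x hx1 hx2 v).trans (mul_le_mul_of_nonneg_right (by linarith) (norm_nonneg _))
  · intro l
    refine (hb3 l _).trans ((le_abs_self _).trans ?_)
    have := Finset.single_le_sum (f := fun l => |N3 l|) (fun _ _ => abs_nonneg _)
      (Finset.mem_univ l)
    linarith
  · intro l y hy
    obtain ⟨hy1, hy2, hy3⟩ := hin y hy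
    have h := hb4 l _ hzT x ⟨hx3, hx2⟩ y ⟨hy3, hy2⟩
    have e1 : (X.toLoc Φ ρ hρ1 hρ3).psi i x = (extChartAt I (X.c i)).symm x := if_pos hxd
    have e2 : (X.toLoc Φ ρ hρ1 hρ3).psi i y = (extChartAt I (X.c i)).symm y := if_pos (hdom y hy)
    rw [e1, e2]
    refine le_trans h (mul_le_mul_of_nonneg_right ?_ (norm_nonneg _))
    have := Finset.single_le_sum (f := N4) (fun l _ => hN4 l) (Finset.mem_univ l)
    linarith
  · intro y hy
    obtain ⟨hy1, hy2, hy3⟩ := hin y hy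
    have h := hb5 _ hzT x ⟨hx3, hx2⟩ y ⟨hy3, hy2⟩
    have e1 : (X.toLoc Φ ρ hρ1 hρ3).dens i x = ρ i x := if_pos hxd
    have e2 : (X.toLoc Φ ρ hρ1 hρ3).dens i y = ρ i y := if_pos (hdom y hy)
    rw [e1, e2]
    exact le_trans h (mul_le_mul_of_nonneg_right (by linarith) (norm_nonneg _))
  · have e1 : (X.toLoc Φ ρ hρ1 hρ3).dens i x = ρ i x := if_pos hxd
    rw [e1]
    have hxK : x ∈ extChartAt I (X.c i) '' ((extChartAt I (X.c i)).symm '' T) :=
      ⟨_, mem_image_of_mem _ hx1, (extChartAt I (X.c i)).right_inv (hVt (hTV hx1))⟩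
    have h := (hb6 x hxK).1
    have hpos : 0 < ρ i x := hρ2 i x (hVt (hTV hx1))
    have hN6' : (0 : ℝ) < N6 := by linarith
    have h1 : 1 ≤ N6 * ρ i x := by
      have := mul_le_mul_of_nonneg_left h hN6'.le
      rwa [mul_inv_cancel₀ hN6'.ne'] at this
    exact h1.trans (mul_le_mul_of_nonneg_right (by linarith) hpos.le)
  · have e1 : (X.toLoc Φ ρ hρ1 hρ3).dens i x = ρ i x := if_pos hxd
    rw [e1]
    have hxK : x ∈ extChartAt I (X.c i) '' ((extChartAt I (X.c i)).symm '' T) :=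
      ⟨_, mem_image_of_mem _ hx1, (extChartAt I (X.c i)).right_inv (hVt (hTV hx1))⟩
    exact (hb6 x hxK).2.trans (by linarith)

theorem toLoc_idx [BorelSpace M] [IsManifold I ∞ M] (Φ : M ≃ₘ^∞⟮I, I⟯ M)
    (ρ : Fin X.p → EuclideanSpace ℝ (Fin d) → ℝ)
    (hρ1 : ∀ i, ContDiffOn ℝ ∞ (ρ i) (extChartAt I (X.c i)).target)
    (hρ3 : ∀ i, ∀ B ⊆ (extChartAt I (X.c i)).target, MeasurableSet B →
      MeasurableSet ((extChartAt I (X.c i)).symm '' B) ∧
      ν ((extChartAt I (X.c i)).symm '' B) = ∫⁻ x in B, ENNReal.ofReal (ρ i x)) (z : M) :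
    (X.toLoc Φ ρ hρ1 hρ3).label z = (X.ch z, X.α z) := X.lab_G z

theorem exists_regular [BorelSpace M] [IsManifold I ∞ M] [CompactSpace M]
    [IsProbabilityMeasure ν] (hν : SmoothPositiveVolume I M ν) (hcol : Collar I)
    (Φ : M ≃ₘ^∞⟮I, I⟯ M) :
    ∃ (Y : CH469.LocModel A d X.p (X.p + X.L) X.lab M ν Φ) (N : ℕ), Y.Regular N ∧
      ∀ z, Y.letter z = X.α z := by
  classical
  have hρ := fun i : Fin X.p => H742.vol I hν (X.c i)
  choose ρ hρ1 hρ2 hρ3 using hρ
  have hfl := fun q : Fin X.p × Fin X.p => X.flag_local Φ ρ hρ1 hρ2 hρ3 q.1 q.2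
  choose r hr B hB hfl using hfl
  have hc := fun i : Fin X.p => H742.collar_measure I hν hcol (X.isCompact_K i) (X.hsrc i)
  choose Cc hCc hc using hc
  choose Cg hCg hg using X.G_thr
  set Y := X.toLoc Φ ρ hρ1 hρ3 with hY
  have hlab : ∀ z, Y.label z = (X.ch z, X.α z) := X.toLoc_idx Φ ρ hρ1 hρ3
  have hidx : ∀ z, Y.idx z = X.ch z := fun z => by
    unfold CH469.LocModel.idx; rw [hlab]
  have hsc : 0 ≤ ∑ i, Cc i := Finset.sum_nonneg fun i _ => hCc i
  have hsg : 0 ≤ ∑ l, Cg l := Finset.sum_nonneg fun l _ => hCg l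
  have hsB : 0 ≤ ∑ q, B q := Finset.sum_nonneg fun q _ => zero_le_one.trans (hB q)
  have hsr : 0 ≤ ∑ q, 1 / r q := Finset.sum_nonneg fun q _ => by have := hr q; positivity
  obtain ⟨N, hN⟩ := exists_nat_ge (1 + ∑ i, Cc i + ∑ l, Cg l + ∑ q, B q + ∑ q, 1 / r q)
  have hN1 : (1 : ℝ) ≤ N := by linarith
  have hN0 : (0 : ℝ) < N := by linarith
  refine ⟨Y, N, ⟨hN1, fun e he0 he1 => ?_⟩, fun z => by
    unfold CH469.LocModel.letter; rw [hlab]⟩
  have heN : 0 < e / N := div_pos he0 hN0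
  have heN' : e / N ≤ e := div_le_self he0.le hN1
  have hsub : {z | ¬ Y.Marg N e z} ⊆
      (⋃ i, {z | z ∈ X.K i ∧ ¬ closedBall (extChartAt I (X.c i) z) (e / N) ⊆
        interior (range I)}) ∪ (⋃ l, {z | |X.G l z| ≤ e}) := by
    intro z hz
    by_contra hcon
    simp only [mem_union, mem_iUnion, mem_ofPred_eq, not_or, not_exists,
      not_and, not_not, not_le] at hcon
    obtain ⟨h1, h2⟩ := hcon
    apply hz
    have hball : closedBall (X.x z) (e / N) ⊆ interior (range I) := by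
      rw [X.x_eq rfl]
      exact h1 (X.ch z) (X.mem_K rfl)
    have hsr' : e / N ≤ r (X.ch z, X.ch (Φ z)) := by
      have hr0 := hr (X.ch z, X.ch (Φ z))
      have h3 : 1 / r (X.ch z, X.ch (Φ z)) ≤ N :=
        (Finset.single_le_sum (f := fun q => 1 / r q) (fun q _ => by have := hr q; positivity)
          (Finset.mem_univ (X.ch z, X.ch (Φ z)))).trans (by linarith)
      rw [div_le_iff₀ hN0]
      rw [div_le_iff₀ hr0] at h3
      linarith
    have hBN : B (X.ch z, X.ch (Φ z)) ≤ N :=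
      (Finset.single_le_sum (f := B) (fun q _ => zero_le_one.trans (hB q))
        (Finset.mem_univ (X.ch z, X.ch (Φ z)))).trans (by linarith)
    have hflag := hfl (X.ch z, X.ch (Φ z)) z rfl rfl (e / N) heN hsr' hball N hBN
    have hphi : Y.phi (Y.idx z) z = X.x z := by
      rw [hidx]
      exact if_pos (X.mem_source rfl)
    refine ⟨?_, ?_, h2⟩
    · rw [hidx]
      have hxd : X.x z ∈ X.dom (X.ch z) :=
        (hflag.1 (mem_closedBall_self heN.le)).1
      refine ⟨X.x z, hxd, ?_⟩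
      have e1 : Y.psi (X.ch z) (X.x z) = (extChartAt I (X.c (X.ch z))).symm (X.x z) := if_pos hxd
      rw [e1]
      exact X.symm_x rfl
    · rw [hphi, hidx, hidx]
      exact hflag
  have b1 : ν (⋃ i, {z | z ∈ X.K i ∧
      ¬ closedBall (extChartAt I (X.c i) z) (e / N) ⊆ interior (range I)}) ≤
      ENNReal.ofReal (∑ i, Cc i * (e / N)) :=
    measure_iUnion_ofReal_le ν _ _ (fun i => mul_nonneg (hCc i) heN.le)
      (fun i => hc i (e / N) heN)
  have b2 : ν (⋃ l, {z | |X.G l z| ≤ e}) ≤ ENNReal.ofReal (∑ l, Cg l * e) :=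
    measure_iUnion_ofReal_le ν _ _ (fun i => mul_nonneg (hCg i) he0.le) (fun l => hg l _ he0)
  rw [← Finset.sum_mul] at b1 b2
  calc ν {z | ¬ Y.Marg N e z} ≤ _ := measure_mono hsub
    _ ≤ ENNReal.ofReal ((∑ i, Cc i) * (e / N)) + ENNReal.ofReal ((∑ l, Cg l) * e) :=
        (measure_union_le _ _).trans (add_le_add b1 b2)
    _ = ENNReal.ofReal ((∑ i, Cc i) * (e / N) + (∑ l, Cg l) * e) := by
        rw [ENNReal.ofReal_add (by positivity) (by positivity)]
    _ ≤ ENNReal.ofReal (N * e) := by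
        apply ENNReal.ofReal_le_ofReal
        have h1 : (∑ i, Cc i) * (e / N) ≤ (∑ i, Cc i) * e := mul_le_mul_of_nonneg_left heN' hsc
        have h2 : (∑ i, Cc i) * e + (∑ l, Cg l) * e ≤ N * e := by
          rw [← add_mul]
          exact mul_le_mul_of_nonneg_right (by linarith) he0.le
        linarith

end Setup

end Vale.Agent.P109.H703
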