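import Mathlib
import Vale.Agent.P109.H703.Reg
import Vale.Agent.P109.H703.Alpha
import Vale.Agent.P109.H742.Collar

/-!
Block S4: every smooth positive-volume model has, for every measurable coding `β`, regular local
models whose letters approximate `β`.
-/

open MeasureTheory Set Filter Topology Metric
open scoped ENNReal ContDiff Manifold

namespace Vale.Agent.P109.H703

open Vale.Agent.P109.Smooth

theorem collar_euclidean (d : ℕ) : Collar (𝓡 d) := fun R => H742.collar_euclidean d R

theorem collar_halfSpace (d : ℕ) [NeZero d] : Collar (𝓡∂ d) := fun R => H742.collar_halfSpace d R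

/-- S4 -/
theorem exists_locModel {d : ℕ} {H : Type} [TopologicalSpace H]
    (I : ModelWithCorners ℝ (EuclideanSpace ℝ (Fin d)) H) (hcol : Collar I)
    {M : Type} [TopologicalSpace M] [ChartedSpace H M] [MeasurableSpace M] [BorelSpace M]
    (hM : CompactSmoothManifold I M)
    {ν : Measure M} [IsProbabilityMeasure ν] (hν : SmoothPositiveVolume I M ν)
    {S : M → M} (hS : IsDiffeo I M S)
    {A : Type} [Fintype A] [Nonempty A] (β : M → A) (hβ : ∀ a, MeasurableSet (β ⁻¹' {a}))
    {ε : ℝ} (hε : 0 < ε) :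
    ∃ (p q : ℕ) (lab : (Fin q → Bool) → Fin p × A) (X : CH469.LocModel A d p q lab M ν S)
      (N : ℕ), X.Regular N ∧ ν {z | X.letter z ≠ β z} ≤ ENNReal.ofReal ε := by
  have := hM.t2
  have := hM.countable
  have := hM.compact
  have := hM.smooth
  obtain ⟨Φ, rfl⟩ := hS
  obtain ⟨L, u, θu, sy, hu, hthru, hα⟩ := exists_alpha I ν β hβ hε
  obtain ⟨p, c, g, θ, hg, hsrc, hθ, hcov, hthr⟩ := exists_cover I (M := M) ν
  have hne : Nonempty M := by
    by_contra h
    rw [not_nonempty_iff] at h
    have h1 : ν univ = 1 := measure_univ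
    rw [Set.univ_eq_empty_iff.2 h, measure_empty] at h1
    exact zero_ne_one h1
  obtain ⟨i0, -⟩ := hcov (Classical.arbitrary M)
  let X : Setup I M ν A :=
    { p := p, i0 := i0, c := c, g := g, θ := θ, hg := hg, hsrc := hsrc, hθ := hθ, hcov := hcov,
      hthr := hthr, L := L, u := u, θu := θu, sy := sy, hu := hu, hthru := hthru }
  obtain ⟨Y, N, hY, hl⟩ := X.exists_regular hν hcol Φ
  refine ⟨_, _, _, Y, N, hY, ?_⟩
  have h : {z | Y.letter z ≠ β z} = {z | sy (fun l => θu l < u l z) ≠ β z} := by
    ext z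
    simp only [mem_ofPred_eq, hl]
    rfl
  rw [h]
  exact hα

end Vale.Agent.P109.H703
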