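import Mathlib
import Vale.Agent.P109.H703.Assemble

/-!
Smooth models give piecewise smooth systems: the final construction.
-/

open MeasureTheory Set Filter Topology Metric
open scoped ENNReal ContDiff Manifold

namespace Vale.Agent.P109.H703

open Vale.Agent.P109.Smooth

namespace Setup

variable {d : ℕ} {H : Type} [TopologicalSpace H]
    {I : ModelWithCorners ℝ (EuclideanSpace ℝ (Fin d)) H}
    {M : Type} [TopologicalSpace M] [ChartedSpace H M] [MeasurableSpace M]
    {ν : Measure M} {A : Type} (X : Setup I M ν A)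

/-- retraction of the indices -/
def up (N : ℕ) (i : Fin N) : Fin X.p := if h : i.1 < X.p then ⟨i.1, h⟩ else X.i0

theorem up_castLE {N : ℕ} (hp : X.p ≤ N) (i : Fin X.p) : X.up N (Fin.castLE hp i) = i := by
  unfold up
  simp

/-- type sets with extended indices -/
theorem C_ext_subset {N : ℕ} (hp : X.p ≤ N) (S : M → M) (i i' : Fin N) (a : A) :
    X.x '' {z | Fin.castLE hp (X.ch z) = i ∧ Fin.castLE hp (X.ch (S z)) = i' ∧ X.α z = a} ⊆
      X.x '' X.Q S (X.up N i) (X.up N i') a := by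
  apply image_mono
  rintro z ⟨h1, h2, h3⟩
  refine ⟨?_, ?_, h3⟩
  · rw [← h1, X.up_castLE]
  · rw [← h2, X.up_castLE]

theorem C_ext_eq {N : ℕ} (hp : X.p ≤ N) (S : M → M) (i i' : Fin X.p) (a : A) :
    {z | Fin.castLE hp (X.ch z) = Fin.castLE hp i ∧
      Fin.castLE hp (X.ch (S z)) = Fin.castLE hp i' ∧ X.α z = a} = X.Q S i i' a := by
  ext z
  simp [Q]

theorem C_ext_cases {N : ℕ} (hp : X.p ≤ N) (S : M → M) (i i' : Fin N) (a : A) :
    (∃ j j' : Fin X.p, i = Fin.castLE hp j ∧ i' = Fin.castLE hp j') ∨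
    {z | Fin.castLE hp (X.ch z) = i ∧ Fin.castLE hp (X.ch (S z)) = i' ∧ X.α z = a} = ∅ := by
  by_cases h : (∃ j j' : Fin X.p, i = Fin.castLE hp j ∧ i' = Fin.castLE hp j')
  · exact Or.inl h
  · right
    rw [Set.eq_empty_iff_forall_notMem]
    rintro z ⟨h1, h2, -⟩
    exact h ⟨_, _, h1.symm, h2.symm⟩

theorem exists_pieceSys [BorelSpace M] [IsManifold I ∞ M] [CompactSpace M]
    [IsProbabilityMeasure ν] (hν : SmoothPositiveVolume I M ν) (hcol : Collar I)
    (Φ : M ≃ₘ^∞⟮I, I⟯ M) (hΦ : MeasurePreserving Φ ν ν) (k : ℕ) :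
    ∃ N0 : ℕ, ∀ N, N0 ≤ N → Nonempty (PieceSys ν Φ X.α d k N) := by
  -- constants
  have hΦm : Measurable Φ := hΦ.measurable
  obtain ⟨R, hR⟩ := X.exists_bound_x
  have hf := fun q : Fin X.p × Fin X.p => X.f_facts Φ k q.1 q.2
  choose Nf hNf hf using hf
  have hρ := fun i : Fin X.p => H742.vol I hν (X.c i)
  choose ρ hρ1 hρ2 hρ3 using hρ
  have hd := fun i : Fin X.p =>
    H742.dens_bounds I (X.isCompact_K i) (X.hsrc i) (hρ1 i) (hρ2 i)
  choose Nd hNd hd1 hd2 using hd
  obtain ⟨Cm, hCm, hm⟩ := X.margin_measure hν hcol Φ hΦ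
  set B0 : ℝ := |R| + ∑ q, Nf q + ∑ i, Nd i + Cm + 1 with hB0
  have hsf : 0 ≤ ∑ q, Nf q := Finset.sum_nonneg fun q _ => hNf q
  have hsd : 0 ≤ ∑ i, Nd i := Finset.sum_nonneg fun i _ => zero_le_one.trans (hNd i)
  obtain ⟨N1, hN1⟩ := exists_nat_ge B0
  refine ⟨max X.p N1, fun N hN => ?_⟩
  have hp : X.p ≤ N := (le_max_left _ _).trans hN
  have hNB : B0 ≤ (N : ℝ) := hN1.trans (by exact_mod_cast (le_max_right _ _).trans hN)
  have hR0 : 0 ≤ |R| := abs_nonneg R
  have hRN : R ≤ N := (le_abs_self R).trans (by linarith)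
  have hfN : ∀ q, Nf q ≤ N := fun q =>
    (Finset.single_le_sum (f := Nf) (fun q _ => hNf q) (Finset.mem_univ q)).trans (by linarith)
  have hdN : ∀ i, Nd i ≤ N := fun i =>
    (Finset.single_le_sum (f := Nd) (fun i _ => zero_le_one.trans (hNd i))
      (Finset.mem_univ i)).trans (by linarith)
  have hCN : Cm ≤ N := by linarith
  have hsub := X.C_ext_subset hp Φ
  refine ⟨{
    ch := fun z => Fin.castLE hp (X.ch z)
    x := X.x
    meas_ch := (measurable_of_finite (Fin.castLE hp)).comp X.measurable_ch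
    meas_x := X.measurable_x
    meas_α := X.measurableSet_α
    bound_x := fun z => (hR z).trans hRN
    inj := fun z z' h hx => X.inj (Fin.castLE_injective hp h) hx
    C := fun i i' a => X.x ''
      {z | Fin.castLE hp (X.ch z) = i ∧ Fin.castLE hp (X.ch (Φ z)) = i' ∧ X.α z = a}
    C_def := fun i i' a => rfl
    meas_C := ?_
    f := fun i i' => X.f Φ (X.up N i) (X.up N i')
    f_x := ?_
    f_smooth := fun i i' a => ((hf (X.up N i, X.up N i') a).1).mono (interior_mono (hsub i i' a))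
    f_bound := fun i i' a y hy m hmk =>
      (((hf (X.up N i, X.up N i') a).2 y (interior_mono (hsub i i' a) hy)).1 m hmk).trans (hfN _)
    f_inv := fun i i' a y hy v =>
      (((hf (X.up N i, X.up N i') a).2 y (interior_mono (hsub i i' a) hy)).2 v).trans
        (mul_le_mul_of_nonneg_right (hfN _) (norm_nonneg _))
    dens := fun i => ρ (X.up N i)
    dens_bound := ?_
    dens_lip := ?_
    vol := ?_
    margin := ?_ }⟩
  · intro i i' a
    rcases X.C_ext_cases hp Φ i i' a with ⟨j, j', rfl, rfl⟩ | h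
    · rw [X.C_ext_eq]
      exact X.measurableSet_C hΦm j j' a
    · rw [h, image_empty]
      exact MeasurableSet.empty
  · intro z
    simp only [X.up_castLE]
    exact X.f_x Φ z
  · intro i i' a y hy
    have hy' := X.C_subset Φ _ _ a (hsub i i' a hy)
    obtain ⟨h1, h2⟩ := hd1 (X.up N i) y hy'
    refine ⟨le_trans ?_ h1, h2.trans (hdN _)⟩
    exact inv_anti₀ (lt_of_lt_of_le zero_lt_one (hNd _)) (hdN _)
  · intro i i' a y y' hseg
    refine (hd2 (X.up N i) y y' (hseg.trans ((hsub i i' a).trans (X.C_subset Φ _ _ a)))).trans ?_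
    exact mul_le_mul_of_nonneg_right (hdN _) (norm_nonneg _)
  · intro i i' a B hB hBm
    rcases X.C_ext_cases hp Φ i i' a with ⟨j, j', rfl, rfl⟩ | h
    · rw [X.C_ext_eq] at hB
      have h1 := X.vol_Q (hρ3 j) hB hBm
      rw [X.up_castLE, ← h1]
      congr 1
      ext z
      simp
    · rw [h, image_empty, subset_empty_iff] at hB
      subst hB
      simp
  · intro e he
    refine le_trans (measure_mono ?_) ((hm e he).trans (ENNReal.ofReal_le_ofReal
      (mul_le_mul_of_nonneg_right hCN he.le)))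
    intro z hz hz'
    apply hz
    rw [X.C_ext_eq]
    exact hz'

end Setup

end Vale.Agent.P109.H703
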